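import Vale.Agent.P095.Relative.Reindex
import Vale.Agent.P095.Slots
import Vale.Agent.P101.NoChar
import Vale.Agent.P101.Colours
import Vale.Agent.P101.Piece
import Vale.Agent.P101.Orth.Pair
import Vale.Agent.P101.Core.Main

/-!
# P095 Relative: a finite quotient group keeps the absence of characters
-/

noncomputable section

namespace Vale.Agent.P095.Relative

open Filter Topology BoundedContinuousFunction Vale.Agent.P101

universe u v

variable {B : Type u} [CStarAlgebra B] {K : TestIdeal B}

local instance relOrder : PartialOrder (RelQuot K atTop) := CStarAlgebra.spectralOrder _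

local instance relOrdered : StarOrderedRing (RelQuot K atTop) :=
  CStarAlgebra.spectralOrderedRing _

theorem cls_eq_zero_iff {F : Filter ℕ} {f : ℕ →ᵇ B} {hf : IsRel K F f} :
    cls f hf = 0 ↔ ∀ k ∈ K.carrier, Tendsto (fun n => ‖f n * k‖) F (𝓝 0) := by
  have h0 : cls (f - f) (hf.sub hf) = 0 := by rw [cls_sub hf hf, sub_self]
  rw [← h0, cls_eq_iff]
  refine forall₂_congr fun k _ => ?_
  simp

variable [TopologicalSpace.SeparableSpace B] {G : Type v} [Group G] [Countable G]
  (α : RelAction G K)

/-- Slots fixed by `H` whose translates by finitely many group elements commute. -/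
theorem exists_slots (H : Subgroup G) {ι : Type*} [Finite ι] (T : ι → G) {N : ℕ} {δ : ℝ}
    {x : Fin N → RelQuot K atTop} (hx : SqZeroFamily δ x)
    (hxH : ∀ j, x j ∈ α.fixed atTop H) (m : ℕ) :
    ∃ X : Fin m → Fin N → RelQuot K atTop, (∀ s j, X s j ∈ α.fixed atTop H) ∧
      (∀ s, SqZeroFamily (δ / 4) (X s)) ∧
      ∀ s t, s ≠ t → ∀ i i' j j',
        StarCommute (α.act (T i) (X s j)) (α.act (T i') (X t j')) := by
  classical
  obtain ⟨c, hc⟩ := CStarAlgebra.nonneg_iff_eq_star_mul_self.1 (sub_nonneg.2 hx.bound)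
  have hhalf : ∀ j, ‖(2⁻¹ : ℂ) • x j‖ < 1 := fun j => by
    rw [norm_smul, norm_inv, Complex.norm_ofNat]
    have := hx.norm_le j
    linarith
  choose g hg hgc hgn using fun j => exists_cls_bound _ (hhalf j)
  obtain ⟨h, hh, hhc⟩ := exists_cls ((2⁻¹ : ℂ) • c)
  let g' : Option (Fin N) → ℕ →ᵇ B := fun o => o.elim h g
  have hg' : ∀ o, IsRel K atTop (g' o) := by rintro (_ | j); exacts [hh, hg j]
  let T' : Option ι → G := fun o => o.elim 1 T
  let W : Option ι × Option (Fin N) → ℕ →ᵇ B := fun p => seqComp (α.hom (T' p.1)) (g' p.2)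
  have hW : ∀ p, IsRel K atTop (W p) := fun p => α.isRel _ (hg' _)
  let rel : ℕ →ᵇ B :=
    ∑ j, star (g j) * g j - ((δ / 4 : ℝ) : ℂ) • (1 : ℕ →ᵇ B) - star h * h
  let R : Fin N ⊕ Unit ⊕ (H × Fin N) → ℕ →ᵇ B :=
    Sum.elim (fun j => g j * g j)
      (Sum.elim (fun _ => rel) fun p => seqComp (α.hom (p.1 : G)) (g p.2) - g p.2)
  have hR : ∀ p, ∀ k ∈ K.carrier, Tendsto (fun n => ‖R p n * k‖) atTop (𝓝 0) := by
    rintro (j | _ | ⟨n, j⟩)
    · refine (cls_eq_zero_iff (hf := (hg j).mul (hg j))).1 ?_
      rw [cls_mul (hg j) (hg j), hgc]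
      simp [hx.sq j]
    · have hgs : ∀ j, IsRel K atTop (star (g j) * g j) := fun j => (hg j).star.mul (hg j)
      have h1 : IsRel K atTop (∑ j, star (g j) * g j) := IsRel.sum _ fun j _ => hgs j
      refine (cls_eq_zero_iff
        (hf := (h1.sub (IsRel.one.smul _)).sub (hh.star.mul hh))).1 ?_
      rw [cls_sub (h1.sub (IsRel.one.smul _)) (hh.star.mul hh), cls_sub h1 (IsRel.one.smul _),
        cls_sum hgs, cls_smul IsRel.one, cls_one, cls_mul hh.star hh, cls_star hh, hhc]
      simp only [cls_mul (hg _).star (hg _), cls_star (hg _), hgc, star_smul, smul_mul_smul_comm,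
        ← Finset.smul_sum, star_inv₀, star_ofNat]
      rw [← hc, smul_sub, Algebra.algebraMap_eq_smul_one, ← Complex.coe_smul, smul_smul]
      rw [sub_eq_zero]
      congr 2
      push_cast
      ring
    · refine (cls_eq_zero_iff (hf := (α.isRel (n : G) (hg j)).sub (hg j))).1 ?_
      rw [cls_sub (α.isRel (n : G) (hg j)) (hg j), ← α.act_cls (n : G) (hg j), hgc, map_smul,
        α.mem_fixed.1 (hxH j) n n.2, sub_self]
  obtain ⟨κs, hrel, hnull, hcomm⟩ := exists_reindex W hW R hR m
  have hW1 : ∀ o, W (none, o) = g' o := fun o => DFunLike.ext _ _ fun n => α.hom_one _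
  have hX : ∀ s o, IsRel K atTop ((g' o).compContinuous (κs s)) := fun s o => by
    have := hrel s (none, o)
    rwa [hW1] at this
  refine ⟨fun s j => cls _ (hX s (some j)), fun s j => α.mem_fixed.2 fun n hn => ?_,
    fun s => ⟨fun j => ?_, fun j => ?_, ?_⟩, fun s t hst i i' j j' => ?_⟩
  · show α.act n (cls _ (hX s (some j))) = cls _ (hX s (some j))
    rw [α.act_cls, cls_eq_iff]
    exact fun k hk => hnull s (Sum.inr (Sum.inr (⟨n, hn⟩, j))) k hk
  · show cls _ (hX s (some j)) * cls _ (hX s (some j)) = 0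
    rw [← cls_mul (hX s (some j)) (hX s (some j)), cls_eq_zero_iff]
    exact fun k hk => hnull s (Sum.inl j) k hk
  · refine (Submodule.Quotient.norm_mk_le _ _).trans ((norm_seqMk_le _).trans ?_)
    exact (BoundedContinuousFunction.norm_le zero_le_one).2 fun n =>
      ((g j).norm_coe_le_norm _).trans (hgn j).le
  · rw [← sub_nonneg, CStarAlgebra.nonneg_iff_eq_star_mul_self]
    refine ⟨cls _ (hX s none), ?_⟩
    have hgs : ∀ j, IsRel K atTop (star ((g' (some j)).compContinuous (κs s)) *
        (g' (some j)).compContinuous (κs s)) := fun j => (hX s _).star.mul (hX s _)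
    rw [Algebra.algebraMap_eq_smul_one, ← Complex.coe_smul, ← cls_one (K := K) (F := atTop),
      ← cls_smul IsRel.one]
    simp only [← cls_star (hX s _), ← cls_mul (hX s _).star (hX s _)]
    rw [← cls_sum hgs, ← cls_sub (IsRel.sum _ fun j _ => hgs j) (IsRel.one.smul _), cls_eq_iff]
    intro k hk
    convert hnull s (Sum.inr (Sum.inl ())) k hk using 4 with n
    simp [R, rel, g', BoundedContinuousFunction.coe_sum, Finset.sum_apply]
  · exact hcomm s t hst (some i, some j) (some i', some j')

section finiteQuotient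

variable (N : Subgroup G) [N.Normal]

omit [TopologicalSpace.SeparableSpace B] [Countable G] [N.Normal] in
theorem act_congr {c : RelQuot K atTop} (hc : c ∈ α.fixed atTop N) {g h : G}
    (e : (g : G ⧸ N) = (h : G ⧸ N)) : α.act g c = α.act h c := by
  have hn : g⁻¹ * h ∈ N := QuotientGroup.eq.1 e
  have : α.act h c = α.act g (α.act (g⁻¹ * h) c) := by
    rw [← α.act_mul, mul_inv_cancel_left]
  rw [this, α.mem_fixed.1 hc _ hn]

omit [TopologicalSpace.SeparableSpace B] [Countable G] in
theorem act_mem_fixed {c : RelQuot K atTop} (hc : c ∈ α.fixed atTop N) (g : G) :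
    α.act g c ∈ α.fixed atTop N := by
  refine α.mem_fixed.2 fun n hn => ?_
  rw [← α.act_mul]
  refine act_congr α N hc (QuotientGroup.eq.2 ?_)
  rw [mul_inv_rev]
  exact ‹N.Normal›.conj_mem' _ (inv_mem hn) g

/-- The quotient group acting on the fixed algebra. -/
def quotAct (q : G ⧸ N) : α.fixed atTop N →⋆ₐ[ℂ] α.fixed atTop N :=
  StarAlgHom.codRestrict ((α.act q.out).comp (α.fixed atTop N).subtype) _
    fun c => act_mem_fixed α N c.2 _

omit [TopologicalSpace.SeparableSpace B] [Countable G] in
theorem coe_quotAct (q : G ⧸ N) (c : α.fixed atTop N) :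
    ((quotAct α N q c : α.fixed atTop N) : RelQuot K atTop) = α.act q.out c := rfl

variable [Finite (G ⧸ N)]

/-- **Finite extension.** If the `N`-fixed algebra has no character, neither has the fixed
algebra of the whole group. -/
theorem isEmpty_character_of_finiteQuotient (hN : IsEmpty (α.fixed atTop N →⋆ₐ[ℂ] ℂ)) :
    IsEmpty (α.fixed atTop (⊤ : Subgroup G) →⋆ₐ[ℂ] ℂ) := by
  classical
  refine ⟨fun χ => ?_⟩
  have := Fintype.ofFinite (G ⧸ N)
  set q0 : ℂ := (Fintype.card (G ⧸ N) : ℂ)⁻¹ with hq0
  have hE : ∀ b : α.fixed atTop N,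
      q0 • ∑ q : G ⧸ N, α.act q.out (b : RelQuot K atTop) ∈ α.fixed atTop (⊤ : Subgroup G) := by
    intro b
    refine α.mem_fixed.2 fun g _ => ?_
    rw [map_smul, map_sum]
    congr 1
    refine Fintype.sum_bijective (fun q => (g : G ⧸ N) * q) (Group.mulLeft_bijective _) _ _
      fun q => ?_
    rw [← α.act_mul]
    refine act_congr α N b.2 ?_
    rw [QuotientGroup.mk_mul, QuotientGroup.out_eq', QuotientGroup.out_eq']
  let E : α.fixed atTop N →ₗ[ℂ] α.fixed atTop (⊤ : Subgroup G) :=
    { toFun := fun b => ⟨_, hE b⟩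
      map_add' := fun a b => Subtype.ext (by simp [Finset.sum_add_distrib])
      map_smul' := fun c a => Subtype.ext (by simp [← Finset.smul_sum, smul_comm q0 c]) }
  have hEfix : ∀ b : α.fixed atTop N, (∀ q, quotAct α N q b = b) →
      (E b : RelQuot K atTop) = b := by
    intro b hb
    show q0 • ∑ q : G ⧸ N, α.act q.out (b : RelQuot K atTop) = b
    have hb' : ∀ q : G ⧸ N, α.act q.out (b : RelQuot K atTop) = b := fun q => congrArg Subtype.val (hb q)
    rw [Finset.sum_congr rfl fun q _ => hb' q, Finset.sum_const,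
      Finset.card_univ, ← Nat.cast_smul_eq_nsmul ℂ, smul_smul, hq0,
      inv_mul_cancel₀ (Nat.cast_ne_zero.2 Fintype.card_ne_zero), one_smul]
  let S : Setup (G ⧸ N) (α.fixed atTop N) :=
    { act := quotAct α N
      act_one := fun b => Subtype.ext (by
        rw [coe_quotAct, act_congr α N b.2 (h := 1) (by simp), α.act_one])
      act_mul := fun p q b => Subtype.ext (by
        rw [coe_quotAct, coe_quotAct, coe_quotAct, ← α.act_mul]
        exact act_congr α N b.2 (by simp))
      state := χ.toAlgHom.toLinearMap ∘ₗ E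
      state_one := by
        show χ (E 1) = 1
        rw [show E 1 = 1 from Subtype.ext (hEfix 1 fun q => map_one _), map_one]
      state_nonneg := fun b => by
        let r : ℂ := (((√(Fintype.card (G ⧸ N) : ℝ))⁻¹ : ℝ) : ℂ)
        have hr : star r * r = q0 := by
          simp only [r, hq0, Complex.star_def, Complex.conj_ofReal, ← Complex.ofReal_mul,
            ← mul_inv, Real.mul_self_sqrt (Nat.cast_nonneg _)]
          push_cast
          rfl
        have h0 : (0 : RelQuot K atTop) ≤ (E (star b * b) : RelQuot K atTop) := by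
          have : (E (star b * b) : RelQuot K atTop) =
              ∑ q : G ⧸ N, star (r • α.act q.out (b : RelQuot K atTop)) *
                (r • α.act q.out (b : RelQuot K atTop)) := by
            simp only [E, LinearMap.coe_mk, AddHom.coe_mk, star_smul, smul_mul_smul_comm, hr,
              Finset.smul_sum, MulMemClass.coe_mul, StarMemClass.coe_star, map_mul, map_star]
          rw [this]
          exact Finset.sum_nonneg fun q _ => star_mul_self_nonneg _
        obtain ⟨c, hc⟩ := CStarAlgebra.nonneg_iff_eq_star_mul_self.1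
          (show (0 : α.fixed atTop (⊤ : Subgroup G)) ≤ E (star b * b) from h0)
        refine ⟨Complex.normSq (χ c), Complex.normSq_nonneg _, ?_⟩
        show χ (E (star b * b)) = _
        rw [hc, map_mul, map_star, Complex.normSq_eq_conj_mul_self, Complex.star_def]
      state_act := fun p b => by
        show χ (E (quotAct α N p b)) = χ (E b)
        congr 1
        refine Subtype.ext ?_
        show q0 • ∑ q : G ⧸ N, α.act q.out (α.act p.out (b : RelQuot K atTop)) = q0 • _
        congr 1
        refine Fintype.sum_bijective (fun q => q * p) (Group.mulRight_bijective _) _ _ fun q => ?_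
        rw [← α.act_mul]
        exact act_congr α N b.2 (by simp)
      state_sq := fun b hb => by
        show χ (E (star b * b)) = star (χ (E b)) * χ (E b)
        rw [← map_star, ← map_mul]
        congr 1
        refine Subtype.ext ?_
        rw [MulMemClass.coe_mul, StarMemClass.coe_star, hEfix b hb,
          hEfix _ fun q => by rw [map_mul, map_star, hb q], MulMemClass.coe_mul,
          StarMemClass.coe_star] }
  obtain ⟨n, δ, x, hδ, hx⟩ := exists_sqZeroFamily hN
  have hx' : SqZeroFamily δ fun j => (x j : RelQuot K atTop) := by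
    refine ⟨fun j => congrArg Subtype.val (hx.sq j), hx.norm_le, ?_⟩
    have := (show ((algebraMap ℝ (α.fixed atTop N) δ : α.fixed atTop N) : RelQuot K atTop) ≤ _
      from hx.bound)
    simpa [Algebra.algebraMap_eq_smul_one] using this
  refine S.false_of_slots (N := n) (δ := δ / 4) (by positivity) fun m => ?_
  obtain ⟨X, hXN, hXf, hXc⟩ :=
    exists_slots α N (fun q : G ⧸ N => q.out) hx' (fun j => (x j).2) m
  refine ⟨fun s j => ⟨X s j, hXN s j⟩, fun s =>
    ⟨fun j => Subtype.ext ((hXf s).sq j), (hXf s).norm_le, ?_⟩, fun s t hst p q i j =>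
      ⟨Subtype.ext (hXc s t hst p q i j).1, Subtype.ext (hXc s t hst p q i j).2⟩⟩
  show ((algebraMap ℝ (α.fixed atTop N) (δ / 4) : α.fixed atTop N) : RelQuot K atTop) ≤ _
  simpa [Algebra.algebraMap_eq_smul_one] using (hXf s).bound

/-- Invariant generators of the dimension drop algebra. -/
theorem exists_gens_of_finiteQuotient (hN : IsEmpty (α.fixed atTop N →⋆ₐ[ℂ] ℂ)) :
    ∃ y v : RelQuot K atTop, (∀ g, α.act g y = y) ∧ (∀ g, α.act g v = v) ∧ y * y = 0 ∧
      star v * v = 1 - star y * y - y * star y ∧ y * star y * v = v := by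
  obtain ⟨n, δ, x, hδ, hx⟩ :=
    exists_sqZeroFamily (isEmpty_character_of_finiteQuotient α N hN)
  have hx' : SqZeroFamily δ fun j => (x j : RelQuot K atTop) := by
    refine ⟨fun j => congrArg Subtype.val (hx.sq j), hx.norm_le, ?_⟩
    have := (show ((algebraMap ℝ (α.fixed atTop (⊤ : Subgroup G)) δ :
      α.fixed atTop (⊤ : Subgroup G)) : RelQuot K atTop) ≤ _ from hx.bound)
    simpa [Algebra.algebraMap_eq_smul_one] using this
  obtain ⟨m, hm⟩ := core_of (orthN_of_orth orthStatement.{u})
    (piece_of_orthN (orthN_of_orth orthStatement.{u})) colours n (δ / 4) (by positivity)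
  obtain ⟨X, hXN, hXf, hXc⟩ :=
    exists_slots α ⊤ (fun _ : Unit => (1 : G)) hx' (fun j => (x j).2) m
  have hX : IsSlots (δ / 4) X := ⟨hXf, fun s t hst i j => by
    simpa [α.act_one] using hXc s t hst () () i j⟩
  obtain ⟨y, v, h1, h2, h3⟩ := hm _ _ (hX.codRestrict (α.fixed atTop (⊤ : Subgroup G)) hXN)
  refine ⟨y, v, fun g => α.mem_fixed.1 y.2 g (Subgroup.mem_top g),
    fun g => α.mem_fixed.1 v.2 g (Subgroup.mem_top g), congrArg Subtype.val h1, ?_,
    congrArg Subtype.val h3⟩
  simpa using congrArg Subtype.val h2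

end finiteQuotient

end Vale.Agent.P095.Relative
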