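import Vale.Agent.P095.Base

/-!
# P095 Relative: central sequences relative to an ideal, modulo its annihilator

For a star-closed ideal `K` of a unital C*-algebra `B`, `RelQuot K F` consists of the bounded
sequences of `B` asymptotically commuting with `K`, modulo those asymptotically annihilating `K`.
For `K = A` inside `B = A~` this is Kirchberg's `F_∞(A)`.
-/

noncomputable section

namespace Vale.Agent.P095.Relative

open Filter Topology BoundedContinuousFunction Vale.Agent.P101

universe u v

variable {B : Type u} [CStarAlgebra B]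

/-- A star-closed ideal used to test centrality and nullity. -/
structure TestIdeal (B : Type u) [CStarAlgebra B] where
  /-- The elements. -/
  carrier : Set B
  mul_left : ∀ x : B, ∀ k ∈ carrier, x * k ∈ carrier
  mul_right : ∀ x : B, ∀ k ∈ carrier, k * x ∈ carrier
  star_mem : ∀ k ∈ carrier, star k ∈ carrier

variable (K : TestIdeal B) (F : Filter ℕ)

/-- The constant sequence of an element. -/
abbrev cst (k : B) : SeqQuot B F := seqMk B F (BoundedContinuousFunction.const ℕ k)

/-- Sequences commuting asymptotically with the test ideal. -/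
def relCent : StarSubalgebra ℂ (SeqQuot B F) :=
  StarSubalgebra.centralizer ℂ ((fun k => cst F k) '' K.carrier)

instance relCent.isClosed : IsClosed (relCent K F : Set (SeqQuot B F)) := by
  rw [relCent, StarSubalgebra.coe_centralizer]
  exact Set.isClosed_centralizer _

instance relCent.instCStarAlgebra : CStarAlgebra (relCent K F) := StarSubalgebra.cstarAlgebra _

variable {K F}

theorem cst_star (k : B) : star (cst F k) = cst F (star k) := by
  rw [← map_star]
  rfl

theorem commute_cst {x : SeqQuot B F} (hx : x ∈ relCent K F) {k : B} (hk : k ∈ K.carrier) :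
    cst F k * x = x * cst F k :=
  ((StarSubalgebra.mem_centralizer_iff ℂ).1 hx _ ⟨k, hk, rfl⟩).1

theorem mem_relCent {f : ℕ →ᵇ B} :
    seqMk B F f ∈ relCent K F ↔
      ∀ k ∈ K.carrier, Tendsto (fun n => ‖k * f n - f n * k‖) F (𝓝 0) := by
  rw [relCent, StarSubalgebra.mem_centralizer_iff]
  constructor
  · intro h k hk
    have h1 := (h _ ⟨k, hk, rfl⟩).1
    simp only [cst] at h1
    rw [← map_mul, ← map_mul, seqMk_eq_iff] at h1
    exact h1
  · rintro h - ⟨k, hk, rfl⟩
    refine ⟨?_, ?_⟩
    · simp only [cst]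
      rw [← map_mul, ← map_mul, seqMk_eq_iff]
      exact h k hk
    · simp only [cst]
      rw [← map_star, ← map_mul, ← map_mul, seqMk_eq_iff]
      exact h (star k) (K.star_mem k hk)

variable (K F)

/-- Central sequences annihilating the test ideal. -/
def relNull : Ideal (relCent K F) where
  carrier := {x | ∀ k ∈ K.carrier, (x : SeqQuot B F) * cst F k = 0}
  zero_mem' k _ := zero_mul _
  add_mem' {x y} hx hy k hk := by
    show ((x : SeqQuot B F) + y) * _ = 0
    rw [add_mul, hx k hk, hy k hk, add_zero]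
  smul_mem' c x hx k hk := by
    show (c : SeqQuot B F) * x * _ = 0
    rw [mul_assoc, hx k hk, mul_zero]

instance relNull.isTwoSided : (relNull K F).IsTwoSided where
  mul_mem_of_left {x} c hx := fun k hk => by
    show (x : SeqQuot B F) * c * _ = 0
    rw [mul_assoc, ← commute_cst c.2 hk, ← mul_assoc, hx k hk, zero_mul]

instance relNull.isClosed : IsClosed (relNull K F : Set (relCent K F)) := by
  have : (relNull K F : Set (relCent K F)) =
      ⋂ k ∈ K.carrier, {x : relCent K F | (x : SeqQuot B F) * cst F k = 0} := by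
    ext x
    simp only [Set.mem_iInter, Set.mem_ofPred_eq]
    rfl
  rw [this]
  exact isClosed_biInter fun k _ =>
    isClosed_eq (continuous_subtype_val.mul continuous_const) continuous_const

/-- Sequences commuting with the test ideal modulo its annihilator. -/
def RelQuot : Type u := relCent K F ⧸ relNull K F

instance RelQuot.instCStarAlgebra : CStarAlgebra (RelQuot K F) :=
  inferInstanceAs (CStarAlgebra (relCent K F ⧸ relNull K F))

/-- The quotient map. -/
def relMk : relCent K F →⋆ₐ[ℂ] RelQuot K F := quotStar (relNull K F)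

theorem relMk_surjective : Function.Surjective (relMk K F) := quotStar_surjective _

theorem relMk_eq_zero {x : relCent K F} : relMk K F x = 0 ↔ x ∈ relNull K F :=
  quotStar_eq_zero _

variable {K F}

/-- A sequence commuting asymptotically with the test ideal. -/
abbrev IsRel (K : TestIdeal B) (F : Filter ℕ) (f : ℕ →ᵇ B) : Prop := seqMk B F f ∈ relCent K F

/-- The class of a sequence. -/
def cls (f : ℕ →ᵇ B) (h : IsRel K F f) : RelQuot K F := relMk K F ⟨_, h⟩

theorem exists_cls (c : RelQuot K F) : ∃ (f : ℕ →ᵇ B) (h : IsRel K F f), cls f h = c := by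
  obtain ⟨⟨x, hx⟩, rfl⟩ := relMk_surjective K F c
  obtain ⟨f, rfl⟩ := seqMk_surjective x
  exact ⟨f, hx, rfl⟩

theorem cls_eq_iff {f g : ℕ →ᵇ B} {hf : IsRel K F f} {hg : IsRel K F g} :
    cls f hf = cls g hg ↔
      ∀ k ∈ K.carrier, Tendsto (fun n => ‖(f n - g n) * k‖) F (𝓝 0) := by
  rw [cls, cls, ← sub_eq_zero, ← map_sub, relMk_eq_zero]
  show (∀ k ∈ K.carrier, (seqMk B F f - seqMk B F g) * cst F k = 0) ↔ _
  refine forall₂_congr fun k _ => ?_
  rw [← map_sub, ← map_mul, seqMk_eq_zero]
  rfl

theorem cls_congr {f g : ℕ →ᵇ B} (e : f = g) {hf : IsRel K F f} (hg : IsRel K F g) :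
    cls f hf = cls g hg := by subst e; rfl

theorem IsRel.add {f g : ℕ →ᵇ B} (hf : IsRel K F f) (hg : IsRel K F g) : IsRel K F (f + g) := by
  rw [IsRel, map_add]; exact add_mem hf hg

theorem IsRel.sub {f g : ℕ →ᵇ B} (hf : IsRel K F f) (hg : IsRel K F g) : IsRel K F (f - g) := by
  rw [IsRel, map_sub]; exact sub_mem hf hg

theorem IsRel.mul {f g : ℕ →ᵇ B} (hf : IsRel K F f) (hg : IsRel K F g) : IsRel K F (f * g) := by
  rw [IsRel, map_mul]; exact mul_mem hf hg

theorem IsRel.star {f : ℕ →ᵇ B} (hf : IsRel K F f) : IsRel K F (Star.star f) := by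
  rw [IsRel, map_star]; exact star_mem hf

theorem IsRel.smul {f : ℕ →ᵇ B} (hf : IsRel K F f) (c : ℂ) : IsRel K F (c • f) := by
  rw [IsRel, map_smul]; exact SMulMemClass.smul_mem c hf

theorem IsRel.one : IsRel K F (1 : ℕ →ᵇ B) := by
  rw [IsRel, map_one]; exact one_mem _

theorem IsRel.sum {κ : Type*} (s : Finset κ) {f : κ → ℕ →ᵇ B} (hf : ∀ i ∈ s, IsRel K F (f i)) :
    IsRel K F (∑ i ∈ s, f i) := by
  rw [IsRel, map_sum]; exact sum_mem hf

theorem cls_add {f g : ℕ →ᵇ B} (hf : IsRel K F f) (hg : IsRel K F g) :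
    cls (f + g) (hf.add hg) = cls f hf + cls g hg := by
  simp only [cls]
  rw [← map_add]
  exact congrArg _ (Subtype.ext (map_add _ _ _))

theorem cls_sub {f g : ℕ →ᵇ B} (hf : IsRel K F f) (hg : IsRel K F g) :
    cls (f - g) (hf.sub hg) = cls f hf - cls g hg := by
  simp only [cls]
  rw [← map_sub]
  exact congrArg _ (Subtype.ext (map_sub _ _ _))

theorem cls_mul {f g : ℕ →ᵇ B} (hf : IsRel K F f) (hg : IsRel K F g) :
    cls (f * g) (hf.mul hg) = cls f hf * cls g hg := by
  simp only [cls]
  rw [← map_mul]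
  exact congrArg _ (Subtype.ext (map_mul _ _ _))

theorem cls_star {f : ℕ →ᵇ B} (hf : IsRel K F f) :
    cls (Star.star f) hf.star = Star.star (cls f hf) := by
  simp only [cls]
  rw [← map_star]
  exact congrArg _ (Subtype.ext (map_star _ _))

theorem cls_smul {f : ℕ →ᵇ B} (hf : IsRel K F f) (c : ℂ) :
    cls (c • f) (hf.smul c) = c • cls f hf := by
  simp only [cls]
  rw [← map_smul]
  exact congrArg _ (Subtype.ext (map_smul _ _ _))

theorem cls_one : cls (1 : ℕ →ᵇ B) IsRel.one = (1 : RelQuot K F) := by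
  simp only [cls]
  rw [← map_one (relMk K F)]
  exact congrArg _ (Subtype.ext (map_one _))

theorem cls_sum {κ : Type*} [Fintype κ] {f : κ → ℕ →ᵇ B} (hf : ∀ i, IsRel K F (f i)) :
    cls (∑ i, f i) (IsRel.sum _ fun i _ => hf i) = ∑ i, cls (f i) (hf i) := by
  simp only [cls]
  rw [← map_sum]
  exact congrArg _ (Subtype.ext (by push_cast; exact map_sum _ _ _))

/-- Representatives of norm close to the norm of the class. -/
theorem exists_cls_bound (c : RelQuot K F) {r : ℝ} (hc : ‖c‖ < r) :
    ∃ (f : ℕ →ᵇ B) (h : IsRel K F f), cls f h = c ∧ ‖f‖ < r := by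
  obtain ⟨x, hx, hxn⟩ := Submodule.Quotient.norm_mk_lt (S := relNull K F) c
    (half_pos (sub_pos.2 hc))
  obtain ⟨f, hf, hfn⟩ := Submodule.Quotient.norm_mk_lt (S := nullSeq B F) (x : SeqQuot B F)
    (half_pos (sub_pos.2 hc))
  have hf' : seqMk B F f = (x : SeqQuot B F) := hf
  have hrel : IsRel K F f := by rw [IsRel, hf']; exact x.2
  refine ⟨f, hrel, ?_, ?_⟩
  · rw [cls, show (⟨seqMk B F f, hrel⟩ : relCent K F) = x from Subtype.ext hf']
    exact hx
  · have : ‖(x : SeqQuot B F)‖ = ‖x‖ := rfl
    have hxn' : ‖x‖ < ‖c‖ + (r - ‖c‖) / 2 := hxn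
    calc ‖f‖ < ‖(x : SeqQuot B F)‖ + (r - ‖c‖) / 2 := hfn
      _ ≤ r := by linarith

/-- An action preserving the test ideal. -/
structure RelAction (G : Type v) [Group G] (K : TestIdeal B) where
  /-- The endomorphisms. -/
  hom : G → B →⋆ₐ[ℂ] B
  hom_one : ∀ b, hom 1 b = b
  hom_mul : ∀ g h b, hom (g * h) b = hom g (hom h b)
  mem : ∀ g, ∀ k ∈ K.carrier, hom g k ∈ K.carrier

namespace RelAction

variable {G : Type v} [Group G] (α : RelAction G K)

theorem hom_inv (g : G) (b : B) : α.hom g (α.hom g⁻¹ b) = b := by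
  rw [← α.hom_mul, mul_inv_cancel, α.hom_one]

theorem isRel (g : G) {f : ℕ →ᵇ B} (hf : IsRel K F f) :
    IsRel K F (seqComp (α.hom g) f) := by
  rw [IsRel, mem_relCent] at hf ⊢
  intro k hk
  refine squeeze_zero (fun n => norm_nonneg _) (fun n => ?_) (hf _ (α.mem g⁻¹ k hk))
  rw [seqComp_apply]
  conv_lhs => rw [← α.hom_inv g k, ← map_mul, ← map_mul, ← map_sub]
  exact NonUnitalStarAlgHom.norm_apply_le _ _

/-- The action on central sequences. -/
def centAct (g : G) : relCent K F →⋆ₐ[ℂ] relCent K F :=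
  StarAlgHom.codRestrict ((seqAct F (α.hom g)).comp (relCent K F).subtype) (relCent K F) fun x => by
    obtain ⟨f, hf⟩ := seqMk_surjective (x : SeqQuot B F)
    show seqAct F (α.hom g) (x : SeqQuot B F) ∈ relCent K F
    rw [← hf, seqAct_mk]
    exact α.isRel g (by rw [IsRel, hf]; exact x.2)

theorem centAct_null (g : G) {x : relCent K F} (hx : x ∈ relNull K F) :
    α.centAct g x ∈ relNull K F := by
  intro k hk
  have h : seqAct F (α.hom g) (cst F (α.hom g⁻¹ k)) = cst F k := by
    rw [seqAct_mk]
    exact congrArg _ (DFunLike.ext _ _ fun n => α.hom_inv g k)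
  show seqAct F (α.hom g) (x : SeqQuot B F) * cst F k = 0
  rw [← h, ← map_mul, hx _ (α.mem g⁻¹ k hk), map_zero]

/-- The action on the relative central sequence algebra. -/
def act (g : G) : RelQuot K F →⋆ₐ[ℂ] RelQuot K F where
  toAlgHom := Ideal.Quotient.liftₐ (relNull K F)
    ((relMk K F).toAlgHom.comp (α.centAct g).toAlgHom) fun _ hx =>
      (relMk_eq_zero K F).2 (α.centAct_null g hx)
  map_star' c := by
    obtain ⟨x, rfl⟩ := relMk_surjective K F c
    show relMk K F (α.centAct g (star x)) = star (relMk K F (α.centAct g x))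
    rw [map_star, map_star]

theorem act_cls (g : G) {f : ℕ →ᵇ B} (hf : IsRel K F f) :
    α.act g (cls f hf) = cls (seqComp (α.hom g) f) (α.isRel g hf) := rfl

theorem act_one (c : RelQuot K F) : α.act 1 c = c := by
  obtain ⟨f, hf, rfl⟩ := exists_cls c
  rw [α.act_cls]
  exact cls_congr (DFunLike.ext _ _ fun n => α.hom_one _) hf

theorem act_mul (g h : G) (c : RelQuot K F) : α.act (g * h) c = α.act g (α.act h c) := by
  obtain ⟨f, hf, rfl⟩ := exists_cls c
  rw [α.act_cls, α.act_cls, α.act_cls]
  exact cls_congr (DFunLike.ext _ _ fun n => α.hom_mul _ _ _) _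

variable (F)

/-- The algebra fixed by a subgroup. -/
def fixed (H : Subgroup G) : StarSubalgebra ℂ (RelQuot K F) :=
  fixSub fun h : H => α.act (h : G)

variable {F}

theorem mem_fixed {H : Subgroup G} {c : RelQuot K F} :
    c ∈ α.fixed F H ↔ ∀ g ∈ H, α.act g c = c := by
  rw [fixed, mem_fixSub]
  exact ⟨fun h g hg => h ⟨g, hg⟩, fun h g => h g g.2⟩

instance fixed.isClosed (H : Subgroup G) : IsClosed (α.fixed F H : Set (RelQuot K F)) := by
  rw [fixed]; infer_instance

instance fixed.instCStarAlgebra (H : Subgroup G) : CStarAlgebra (α.fixed F H) :=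
  StarSubalgebra.cstarAlgebra _

/-- Restriction to a subgroup. -/
def restrict (H : Subgroup G) : RelAction H K where
  hom h := α.hom (h : G)
  hom_one b := α.hom_one b
  hom_mul g h b := α.hom_mul g h b
  mem g := α.mem g

theorem restrict_act (H : Subgroup G) (h : H) (c : RelQuot K F) :
    (α.restrict H).act h c = α.act (h : G) c := by
  obtain ⟨f, hf, rfl⟩ := exists_cls c
  rfl

end RelAction

end Vale.Agent.P095.Relative
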