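import Vale.Agent.P095.Relative.LocallyFinite

/-!
# P095 Relative: actions on possibly non-unital separable C*-algebras

`IsDropHomMod A φ`: on representatives, `φ` is a unital *-homomorphism from `Z_{2,3}` into
`F_∞(A) = (A_∞ ∩ A') / Ann(A)`; `IsInvariantDropHomMod α φ`: with values fixed by the action.
-/

noncomputable section

namespace Vale.Agent.P095.Relative

open Filter Topology BoundedContinuousFunction Vale.Agent.P101

universe u v

attribute [local instance] CStarAlgebra.spectralOrder CStarAlgebra.spectralOrderedRing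

variable (A : Type u) [NonUnitalCStarAlgebra A]

/-- `φ` is a unital *-homomorphism from `Z_{2,3}` (pointwise operations) into
`(A_∞ ∩ A') / Ann(A)`, written on representatives: every `φ f` is bounded and asymptotically
commutes with `A`, and the laws hold after multiplication by any `a : A`, up to norm-null
sequences. -/
structure IsDropHomMod
    (φ : C(↥(Set.Icc (0 : ℝ) 1), Matrix (Fin 3 × Fin 2) (Fin 3 × Fin 2) ℂ) → ℕ → A) : Prop where
  bounded : ∀ f, InDimDrop f → ∃ C, ∀ n, ‖φ f n‖ ≤ C
  central : ∀ f, InDimDrop f → ∀ a : A,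
    Tendsto (fun n => ‖a * φ f n - φ f n * a‖) atTop (𝓝 0)
  map_one : ∀ a : A, Tendsto (fun n => ‖φ 1 n * a - a‖) atTop (𝓝 0)
  map_add : ∀ f g, InDimDrop f → InDimDrop g → ∀ a : A,
    Tendsto (fun n => ‖(φ (f + g) n - (φ f n + φ g n)) * a‖) atTop (𝓝 0)
  map_mul : ∀ f g, InDimDrop f → InDimDrop g → ∀ a : A,
    Tendsto (fun n => ‖(φ (f * g) n - φ f n * φ g n) * a‖) atTop (𝓝 0)
  map_smul : ∀ (c : ℂ) f, InDimDrop f → ∀ a : A,
    Tendsto (fun n => ‖(φ (c • f) n - c • φ f n) * a‖) atTop (𝓝 0)
  map_star : ∀ f, InDimDrop f → ∀ a : A,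
    Tendsto (fun n => ‖(φ (star f) n - star (φ f n)) * a‖) atTop (𝓝 0)

variable {A}

/-- In addition, the values are asymptotically fixed by the action, modulo `Ann(A)`. -/
structure IsInvariantDropHomMod {G : Type v} [Group G] (α : G →* (A ≃⋆ₐ[ℂ] A))
    (φ : C(↥(Set.Icc (0 : ℝ) 1), Matrix (Fin 3 × Fin 2) (Fin 3 × Fin 2) ℂ) → ℕ → A) : Prop where
  hom : IsDropHomMod A φ
  invariant : ∀ g f, InDimDrop f → ∀ a : A,
    Tendsto (fun n => ‖(α g (φ f n) - φ f n) * a‖) atTop (𝓝 0)

omit [NonUnitalCStarAlgebra A] in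
theorem fst_zero_eq {x : Unitization ℂ A} (h : x.fst = 0) : ((x.snd : A) : Unitization ℂ A) = x :=
  Unitization.ext (by simpa using h.symm) (by simp)

variable (A) in
/-- `A` as a test ideal of its unitization. -/
def testIdeal : TestIdeal (Unitization ℂ A) where
  carrier := Set.range (Unitization.inr : A → Unitization ℂ A)
  mul_left := by
    rintro x _ ⟨a, rfl⟩
    exact ⟨_, fst_zero_eq (by simp)⟩
  mul_right := by
    rintro x _ ⟨a, rfl⟩
    exact ⟨_, fst_zero_eq (by simp)⟩
  star_mem := by
    rintro _ ⟨a, rfl⟩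
    exact ⟨star a, Unitization.inr_star a⟩

theorem tendsto_norm_inr {u : ℕ → A} {w : ℕ → Unitization ℂ A} (h : ∀ n, w n = ((u n : A) : Unitization ℂ A)) :
    Tendsto (fun n => ‖w n‖) atTop (𝓝 0) ↔ Tendsto (fun n => ‖u n‖) atTop (𝓝 0) := by
  simp only [h, Unitization.norm_inr]

instance separableUnitization [TopologicalSpace.SeparableSpace A] :
    TopologicalSpace.SeparableSpace (Unitization ℂ A) := by
  have hc : Continuous fun p : ℂ × A => algebraMap ℂ (Unitization ℂ A) p.1 + ((p.2 : A) : Unitization ℂ A) :=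
    ((continuous_algebraMap ℂ (Unitization ℂ A)).comp continuous_fst).add
      ((Unitization.isometry_inr (𝕜 := ℂ) (A := A)).continuous.comp continuous_snd)
  refine Function.Surjective.denseRange (fun x => ⟨(x.fst, x.snd), ?_⟩) |>.separableSpace hc
  simpa [Unitization.algebraMap_eq_inl] using Unitization.inl_fst_add_inr_snd_eq x

variable {G : Type v} [Group G]

/-- The action on the unitization. -/
def unitAct (α : G →* (A ≃⋆ₐ[ℂ] A)) : RelAction G (testIdeal A) where
  hom g := Unitization.starMap (α g).toNonUnitalStarAlgHom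
  hom_one b := by
    induction b using Unitization.ind with
    | inl_add_inr r a => simp [Unitization.algebraMap_eq_inl]
  hom_mul g h b := by
    induction b using Unitization.ind with
    | inl_add_inr r a => simp [Unitization.algebraMap_eq_inl]
  mem g := by
    rintro _ ⟨a, rfl⟩
    exact ⟨α g a, by simp⟩

theorem unitAct_inr (α : G →* (A ≃⋆ₐ[ℂ] A)) (g : G) (a : A) :
    (unitAct α).hom g (((a : A) : Unitization ℂ A)) = ((α g a : A) : Unitization ℂ A) := by
  simp [unitAct]

variable [TopologicalSpace.SeparableSpace A]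

/-- An approximate unit sequence. -/
theorem exists_unitSeq : ∃ e : ℕ → A, (∀ n, ‖e n‖ ≤ 1) ∧ (∀ n, star (e n) = e n) ∧
    ∀ a : A, Tendsto (fun n => ‖e n * a - a‖) atTop (𝓝 0) ∧
      Tendsto (fun n => ‖a * e n - a‖) atTop (𝓝 0) := by
  obtain ⟨b, hb⟩ := TopologicalSpace.exists_dense_seq A
  have hl := CStarAlgebra.increasingApproximateUnit A
  have := hl.toIsApproximateUnit.neBot
  have hpick : ∀ n : ℕ, ∃ e : A, ‖e‖ ≤ 1 ∧ star e = e ∧ ∀ p ∈ Set.Iic n,
      ‖e * b p - b p‖ < 1 / ((n : ℝ) + 1) ∧ ‖b p * e - b p‖ < 1 / ((n : ℝ) + 1) := fun n => by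
    refine ((hl.eventually_norm).and ((hl.eventually_star_eq).and
      ((Set.finite_Iic n).eventually_all.2 fun p _ => ?_))).exists
    have h1 := (tendsto_iff_norm_sub_tendsto_zero.1
      (hl.toIsApproximateUnit.tendsto_mul_right (b p))).eventually
        (gt_mem_nhds (show (0 : ℝ) < 1 / ((n : ℝ) + 1) by positivity))
    have h2 := (tendsto_iff_norm_sub_tendsto_zero.1
      (hl.toIsApproximateUnit.tendsto_mul_left (b p))).eventually
        (gt_mem_nhds (show (0 : ℝ) < 1 / ((n : ℝ) + 1) by positivity))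
    exact h1.and h2
  choose e he hes hep using hpick
  refine ⟨e, he, hes, fun a => ?_⟩
  have key : ∀ T : ℕ → A → A, (∀ n x y, ‖T n x - T n y‖ ≤ 2 * ‖x - y‖) →
      (∀ p n, p ≤ n → ‖T n (b p)‖ < 1 / ((n : ℝ) + 1)) →
      Tendsto (fun n => ‖T n a‖) atTop (𝓝 0) := by
    intro T hT hTb
    rw [Metric.tendsto_nhds]
    intro ε hε
    obtain ⟨p, hp⟩ := hb.exists_dist_lt a (show (0 : ℝ) < ε / 4 by linarith)
    rw [dist_eq_norm] at hp
    filter_upwards [eventually_ge_atTop p,
      tendsto_one_div_add_atTop_nhds_zero_nat.eventually (gt_mem_nhds (half_pos hε))] with n h1 h2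
    rw [Real.dist_eq, sub_zero, abs_of_nonneg (norm_nonneg _)]
    have h3 := norm_le_norm_sub_add (T n a) (T n (b p))
    have h4 := hT n a (b p)
    have h5 := hTb p n h1
    linarith
  constructor
  · refine key (fun n x => e n * x - x) (fun n x y => ?_) fun p n hpn => (hep n p hpn).1
    rw [show e n * x - x - (e n * y - y) = e n * (x - y) - (x - y) by rw [mul_sub]; abel]
    refine (norm_sub_le _ _).trans ?_
    have := (norm_mul_le (e n) (x - y)).trans
      (mul_le_mul_of_nonneg_right (he n) (norm_nonneg _))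
    linarith
  · refine key (fun n x => x * e n - x) (fun n x y => ?_) fun p n hpn => (hep n p hpn).2
    rw [show x * e n - x - (y * e n - y) = (x - y) * e n - (x - y) by rw [sub_mul]; abel]
    refine (norm_sub_le _ _).trans ?_
    have := (norm_mul_le (x - y) (e n)).trans
      (mul_le_mul_of_nonneg_left (he n) (norm_nonneg _))
    linarith

variable {α : G →* (A ≃⋆ₐ[ℂ] A)}

omit [TopologicalSpace.SeparableSpace A] in
/-- A homomorphism on representatives, invariant under `H`, as a homomorphism into the fixed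
algebra. -/
theorem hom_of_mod {H : Subgroup G}
    {φ : C(↥(Set.Icc (0 : ℝ) 1), Matrix (Fin 3 × Fin 2) (Fin 3 × Fin 2) ℂ) → ℕ → A}
    (hφ : IsDropHomMod A φ)
    (hinv : ∀ g ∈ H, ∀ f, InDimDrop f → ∀ a : A,
      Tendsto (fun n => ‖(α g (φ f n) - φ f n) * a‖) atTop (𝓝 0)) :
    Nonempty (dropAlg23 →⋆ₐ[ℂ] (unitAct α).fixed atTop H) := by
  choose C hC using fun f : dropAlg23 => hφ.bounded f.1 f.2
  let w : dropAlg23 → ℕ →ᵇ Unitization ℂ A := fun f =>
    bseq (fun n => ((φ f.1 n : A) : Unitization ℂ A)) (C f) fun n => by rw [Unitization.norm_inr]; exact hC f n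
  have hw : ∀ f, IsRel (testIdeal A) atTop (w f) := fun f => by
    rw [IsRel, mem_relCent]
    rintro _ ⟨a, rfl⟩
    exact (tendsto_norm_inr (u := fun n => a * φ f.1 n - φ f.1 n * a) fun n => by
      simp [w, Unitization.inr_sub, Unitization.inr_mul]).2 (hφ.central f.1 f.2 a)
  have eq_of : ∀ (f : dropAlg23) (z : ℕ →ᵇ Unitization ℂ A) (hz : IsRel (testIdeal A) atTop z),
      (∀ a : A, Tendsto (fun n => ‖(w f n - z n) * ((a : A) : Unitization ℂ A)‖) atTop (𝓝 0)) →
        cls (w f) (hw f) = cls z hz := fun f z hz h => by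
    rw [cls_eq_iff]
    rintro _ ⟨a, rfl⟩
    exact h a
  have hfix : ∀ f, cls (w f) (hw f) ∈ (unitAct α).fixed atTop H := fun f => by
    refine (unitAct α).mem_fixed.2 fun g hg => ?_
    rw [(unitAct α).act_cls, cls_eq_iff]
    rintro _ ⟨a, rfl⟩
    exact (tendsto_norm_inr (u := fun n => (α g (φ f.1 n) - φ f.1 n) * a) fun n => by
      simp [w, unitAct_inr, Unitization.inr_sub, Unitization.inr_mul]).2 (hinv g hg f.1 f.2 a)
  have hone : cls (w 1) (hw 1) = 1 := by
    rw [← cls_one]
    exact eq_of _ _ _ fun a => (tendsto_norm_inr (u := fun n => φ 1 n * a - a) fun n => by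
      simp [w, sub_mul, Unitization.inr_sub, Unitization.inr_mul]).2 (hφ.map_one a)
  have hadd : ∀ f g, cls (w (f + g)) (hw _) = cls (w f) (hw f) + cls (w g) (hw g) := fun f g => by
    rw [← cls_add (hw f) (hw g)]
    exact eq_of _ _ _ fun a =>
      (tendsto_norm_inr (u := fun n => (φ (f.1 + g.1) n - (φ f.1 n + φ g.1 n)) * a) fun n => by
        simp [w, Unitization.inr_sub, Unitization.inr_add, Unitization.inr_mul]).2
          (hφ.map_add f.1 g.1 f.2 g.2 a)
  have hmul : ∀ f g, cls (w (f * g)) (hw _) = cls (w f) (hw f) * cls (w g) (hw g) := fun f g => by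
    rw [← cls_mul (hw f) (hw g)]
    exact eq_of _ _ _ fun a =>
      (tendsto_norm_inr (u := fun n => (φ (f.1 * g.1) n - φ f.1 n * φ g.1 n) * a) fun n => by
        simp [w, Unitization.inr_sub, Unitization.inr_mul]).2 (hφ.map_mul f.1 g.1 f.2 g.2 a)
  have hsmul : ∀ (c : ℂ) f, cls (w (c • f)) (hw _) = c • cls (w f) (hw f) := fun c f => by
    rw [← cls_smul (hw f)]
    exact eq_of _ _ _ fun a =>
      (tendsto_norm_inr (u := fun n => (φ (c • f.1) n - c • φ f.1 n) * a) fun n => by
        simp [w, Unitization.inr_sub, Unitization.inr_smul, Unitization.inr_mul]).2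
          (hφ.map_smul c f.1 f.2 a)
  have hstar : ∀ f, cls (w (star f)) (hw _) = star (cls (w f) (hw f)) := fun f => by
    rw [← cls_star (hw f)]
    exact eq_of _ _ _ fun a =>
      (tendsto_norm_inr (u := fun n => (φ (star f.1) n - star (φ f.1 n)) * a) fun n => by
        simp [w, Unitization.inr_sub, Unitization.inr_star, Unitization.inr_mul]).2
          (hφ.map_star f.1 f.2 a)
  have hzero : cls (w 0) (hw 0) = 0 := by
    have := hsmul 0 0
    rwa [zero_smul, zero_smul] at this
  exact ⟨{
    toFun := fun f => ⟨_, hfix f⟩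
    map_one' := Subtype.ext hone
    map_mul' := fun f g => Subtype.ext (hmul f g)
    map_zero' := Subtype.ext hzero
    map_add' := fun f g => Subtype.ext (hadd f g)
    commutes' := fun c => Subtype.ext (by
      simp only [Algebra.algebraMap_eq_smul_one, SetLike.val_smul, OneMemClass.coe_one]
      rw [hsmul, hone])
    map_star' := fun f => Subtype.ext (hstar f) }⟩

/-- A homomorphism into the fixed algebra, on representatives in `A`. -/
theorem mod_of_hom (Φ : dropAlg23 →⋆ₐ[ℂ] (unitAct α).fixed atTop (⊤ : Subgroup G)) :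
    ∃ φ, IsInvariantDropHomMod α φ := by
  classical
  obtain ⟨e, he, hes, hunit⟩ := exists_unitSeq (A := A)
  choose r hr hrc using fun f : dropAlg23 => exists_cls (Φ f : RelQuot (testIdeal A) atTop)
  obtain ⟨φ, hφ⟩ : ∃ φ : C(↥(Set.Icc (0 : ℝ) 1), Matrix (Fin 3 × Fin 2) (Fin 3 × Fin 2) ℂ) →
      ℕ → A, ∀ f : dropAlg23, φ f.1 = fun n => (r f n * ((e n : A) : Unitization ℂ A)).snd :=
    ⟨fun f => if hf : f ∈ dropAlg23 then fun n => (r ⟨f, hf⟩ n * ((e n : A) : Unitization ℂ A)).snd else 0,
      fun f => dif_pos f.2⟩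
  have hinr : ∀ (f : dropAlg23) n, ((φ f.1 n : A) : Unitization ℂ A) = r f n * ((e n : A) : Unitization ℂ A) := fun f n => by
    rw [hφ]
    exact fst_zero_eq (by simp)
  have hen : ∀ n, ‖((e n : A) : Unitization ℂ A)‖ ≤ 1 := fun n => by rw [Unitization.norm_inr]; exact he n
  have hle : ∀ a : A, Tendsto (fun n => ‖((e n : A) : Unitization ℂ A) * ((a : A) : Unitization ℂ A) - ((a : A) : Unitization ℂ A)‖) atTop (𝓝 0) := fun a =>
    (tendsto_norm_inr (u := fun n => e n * a - a) fun n => by
      simp [Unitization.inr_sub, Unitization.inr_mul]).2 (hunit a).1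
  have hre : ∀ a : A, Tendsto (fun n => ‖((a : A) : Unitization ℂ A) * ((e n : A) : Unitization ℂ A) - ((a : A) : Unitization ℂ A)‖) atTop (𝓝 0) := fun a =>
    (tendsto_norm_inr (u := fun n => a * e n - a) fun n => by
      simp [Unitization.inr_sub, Unitization.inr_mul]).2 (hunit a).2
  have hcomm : ∀ (f : dropAlg23) (a : A),
      Tendsto (fun n => ‖((a : A) : Unitization ℂ A) * r f n - r f n * ((a : A) : Unitization ℂ A)‖) atTop (𝓝 0) := fun f a =>
    mem_relCent.1 (hr f) _ ⟨a, rfl⟩
  -- the representative in `A` agrees with the one in the unitization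
  have hrep : ∀ (f : dropAlg23) (a : A),
      Tendsto (fun n => ‖(((φ f.1 n : A) : Unitization ℂ A) - r f n) * ((a : A) : Unitization ℂ A)‖) atTop (𝓝 0) := by
    intro f a
    refine squeeze_zero (fun n => norm_nonneg _) (fun n => ?_)
      (by simpa using (hle a).const_mul ‖r f‖)
    rw [hinr, show (r f n * ((e n : A) : Unitization ℂ A) - r f n) * ((a : A) : Unitization ℂ A) = r f n * (((e n : A) : Unitization ℂ A) * ((a : A) : Unitization ℂ A) - ((a : A) : Unitization ℂ A)) by
      rw [sub_mul, mul_sub, mul_assoc]]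
    exact (norm_mul_le _ _).trans
      (mul_le_mul_of_nonneg_right ((r f).norm_coe_le_norm n) (norm_nonneg _))
  have hclseq : ∀ (f : dropAlg23) (z : ℕ →ᵇ Unitization ℂ A) (hz : IsRel (testIdeal A) atTop z),
      (Φ f : RelQuot (testIdeal A) atTop) = cls z hz → ∀ a : A,
        Tendsto (fun n => ‖(r f n - z n) * ((a : A) : Unitization ℂ A)‖) atTop (𝓝 0) := fun f z hz h a => by
    have h' : cls (r f) (hr f) = cls z hz := (hrc f).trans h
    exact cls_eq_iff.1 h' _ ⟨a, rfl⟩
  have hbound : ∀ (f : dropAlg23) n, ‖((φ f.1 n : A) : Unitization ℂ A)‖ ≤ ‖r f‖ := fun f n => by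
    rw [hinr]
    exact (norm_mul_le _ _).trans
      ((mul_le_of_le_one_right (norm_nonneg _) (hen n)).trans ((r f).norm_coe_le_norm n))
  refine ⟨φ, ⟨⟨fun f hf => ?_, fun f hf a => ?_, fun a => ?_, fun f g hf hg a => ?_,
    fun f g hf hg a => ?_, fun c f hf a => ?_, fun f hf a => ?_⟩, fun g f hf a => ?_⟩⟩
  · refine ⟨‖r ⟨f, hf⟩‖, fun n => ?_⟩
    rw [← Unitization.norm_inr (𝕜 := ℂ)]
    exact hbound ⟨f, hf⟩ n
  · lift f to dropAlg23 using hf
    refine (tendsto_norm_inr fun n =>
      (by simp [Unitization.inr_sub, Unitization.inr_mul] :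
        ((a : A) : Unitization ℂ A) * ((φ f.1 n : A) : Unitization ℂ A) - ((φ f.1 n : A) : Unitization ℂ A) * ((a : A) : Unitization ℂ A) = ((a * φ f.1 n - φ f.1 n * a : A) : Unitization ℂ A))).1 ?_
    refine squeeze_zero (fun n => norm_nonneg _) (fun n => ?_)
      (by simpa using (hcomm f a).add (((hre a).add (hle a)).const_mul ‖r f‖))
    rw [hinr, show ((a : A) : Unitization ℂ A) * (r f n * ((e n : A) : Unitization ℂ A)) - r f n * ((e n : A) : Unitization ℂ A) * ((a : A) : Unitization ℂ A) =
      (((a : A) : Unitization ℂ A) * r f n - r f n * ((a : A) : Unitization ℂ A)) * ((e n : A) : Unitization ℂ A) +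
        r f n * ((((a : A) : Unitization ℂ A) * ((e n : A) : Unitization ℂ A) - ((a : A) : Unitization ℂ A)) - (((e n : A) : Unitization ℂ A) * ((a : A) : Unitization ℂ A) - ((a : A) : Unitization ℂ A))) by
          simp only [sub_mul, mul_sub, mul_assoc]; abel]
    refine (norm_add_le _ _).trans (add_le_add ((norm_mul_le _ _).trans ?_) ?_)
    · exact mul_le_of_le_one_right (norm_nonneg _) (hen n)
    · exact (norm_mul_le _ _).trans (mul_le_mul ((r f).norm_coe_le_norm n) (norm_sub_le _ _)
        (norm_nonneg _) (norm_nonneg _))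
  · refine (tendsto_norm_inr fun n => (by
      simp [Unitization.inr_sub, Unitization.inr_mul] :
        ((φ 1 n : A) : Unitization ℂ A) * ((a : A) : Unitization ℂ A) - ((a : A) : Unitization ℂ A) = ((φ 1 n * a - a : A) : Unitization ℂ A))).1 ?_
    refine squeeze_zero (fun n => norm_nonneg _) (fun n => ?_) (by
      simpa using (hrep 1 a).add (hclseq 1 1 IsRel.one (by rw [map_one, cls_one]; rfl) a))
    rw [show ((φ 1 n : A) : Unitization ℂ A) * ((a : A) : Unitization ℂ A) - ((a : A) : Unitization ℂ A) =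
      (((φ ((1 : dropAlg23) : _) n : A) : Unitization ℂ A) - r 1 n) * ((a : A) : Unitization ℂ A) +
        (r 1 n - (1 : ℕ →ᵇ Unitization ℂ A) n) * ((a : A) : Unitization ℂ A) by
          simp only [sub_mul, OneMemClass.coe_one, BoundedContinuousFunction.coe_one,
            Pi.one_apply, one_mul]; abel]
    exact norm_add_le _ _
  · lift f to dropAlg23 using hf
    lift g to dropAlg23 using hg
    refine (tendsto_norm_inr fun n => (by
      simp [Unitization.inr_sub, Unitization.inr_add, Unitization.inr_mul] :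
        (((φ (f.1 + g.1) n : A) : Unitization ℂ A) - (((φ f.1 n : A) : Unitization ℂ A) + ((φ g.1 n : A) : Unitization ℂ A))) * ((a : A) : Unitization ℂ A) =
          (((φ (f.1 + g.1) n - (φ f.1 n + φ g.1 n)) * a : A) : Unitization ℂ A))).1 ?_
    refine squeeze_zero (fun n => norm_nonneg _) (fun n => ?_) (by
      simpa using (((hrep (f + g) a).add (hrep f a)).add (hrep g a)).add
        (hclseq (f + g) _ ((hr f).add (hr g)) (by rw [cls_add (hr f) (hr g), hrc, hrc, map_add]; rfl) a))
    rw [show (((φ (f.1 + g.1) n : A) : Unitization ℂ A) - (((φ f.1 n : A) : Unitization ℂ A) + ((φ g.1 n : A) : Unitization ℂ A))) * ((a : A) : Unitization ℂ A) =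
      (((φ (f + g : dropAlg23).1 n : A) : Unitization ℂ A) - r (f + g) n) * ((a : A) : Unitization ℂ A) - (((φ f.1 n : A) : Unitization ℂ A) - r f n) * ((a : A) : Unitization ℂ A)
        - (((φ g.1 n : A) : Unitization ℂ A) - r g n) * ((a : A) : Unitization ℂ A) + (r (f + g) n - (r f + r g) n) * ((a : A) : Unitization ℂ A) by
          simp only [sub_mul, add_mul, AddMemClass.coe_add, BoundedContinuousFunction.coe_add,
            Pi.add_apply]; abel]
    exact (norm_add_le _ _).trans (add_le_add
      ((norm_sub_le _ _).trans (add_le_add (norm_sub_le _ _) le_rfl)) le_rfl)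
  · lift f to dropAlg23 using hf
    lift g to dropAlg23 using hg
    refine (tendsto_norm_inr fun n => (by
      simp [Unitization.inr_sub, Unitization.inr_mul] :
        (((φ (f.1 * g.1) n : A) : Unitization ℂ A) - ((φ f.1 n : A) : Unitization ℂ A) * ((φ g.1 n : A) : Unitization ℂ A)) * ((a : A) : Unitization ℂ A) =
          (((φ (f.1 * g.1) n - φ f.1 n * φ g.1 n) * a : A) : Unitization ℂ A))).1 ?_
    refine squeeze_zero (fun n => norm_nonneg _) (fun n => ?_) (by
      simpa using ((((hrep (f * g) a).add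
        (hclseq (f * g) _ ((hr f).mul (hr g)) (by rw [cls_mul (hr f) (hr g), hrc, hrc, map_mul]; rfl) a)).add
          ((hrep g a).const_mul ‖r f‖)).add ((hrep f a).const_mul ‖r g‖)).add
            ((hcomm g a).const_mul (2 * ‖r f‖)))
    rw [show (((φ (f.1 * g.1) n : A) : Unitization ℂ A) - ((φ f.1 n : A) : Unitization ℂ A) * ((φ g.1 n : A) : Unitization ℂ A)) * ((a : A) : Unitization ℂ A) =
      (((φ (f * g : dropAlg23).1 n : A) : Unitization ℂ A) - r (f * g) n) * ((a : A) : Unitization ℂ A) +
        (r (f * g) n - (r f * r g) n) * ((a : A) : Unitization ℂ A) +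
        -(((φ f.1 n : A) : Unitization ℂ A) * ((((φ g.1 n : A) : Unitization ℂ A) - r g n) * ((a : A) : Unitization ℂ A))) +
        -((((φ f.1 n : A) : Unitization ℂ A) - r f n) * ((a : A) : Unitization ℂ A) * r g n) +
        (((φ f.1 n : A) : Unitization ℂ A) - r f n) * (((a : A) : Unitization ℂ A) * r g n - r g n * ((a : A) : Unitization ℂ A)) by
          simp only [sub_mul, mul_sub, mul_assoc, MulMemClass.coe_mul,
            BoundedContinuousFunction.coe_mul, Pi.mul_apply]; abel]
    refine (norm_add_le _ _).trans (add_le_add ((norm_add_le _ _).trans (add_le_add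
      ((norm_add_le _ _).trans (add_le_add (norm_add_le _ _) ?_)) ?_)) ?_)
    · rw [norm_neg]
      refine (norm_mul_le _ _).trans (mul_le_mul_of_nonneg_right ?_ (norm_nonneg _))
      exact hbound f n
    · rw [norm_neg, mul_comm]
      exact (norm_mul_le _ _).trans
        (mul_le_mul_of_nonneg_left ((r g).norm_coe_le_norm n) (norm_nonneg _))
    · refine (norm_mul_le _ _).trans (mul_le_mul_of_nonneg_right ?_ (norm_nonneg _))
      refine (norm_sub_le _ _).trans ?_
      have h1 : ‖((φ f.1 n : A) : Unitization ℂ A)‖ ≤ ‖r f‖ := hbound f n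
      linarith [(r f).norm_coe_le_norm n]
  · lift f to dropAlg23 using hf
    refine (tendsto_norm_inr fun n => (by
      simp [Unitization.inr_sub, Unitization.inr_smul, Unitization.inr_mul] :
        (((φ (c • f.1) n : A) : Unitization ℂ A) - c • ((φ f.1 n : A) : Unitization ℂ A)) * ((a : A) : Unitization ℂ A) =
          (((φ (c • f.1) n - c • φ f.1 n) * a : A) : Unitization ℂ A))).1 ?_
    refine squeeze_zero (fun n => norm_nonneg _) (fun n => ?_) (by
      simpa using ((hrep (c • f) a).add
        (hclseq (c • f) _ ((hr f).smul c) (by rw [cls_smul (hr f), hrc, map_smul]; rfl) a)).add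
          ((hrep f a).const_mul ‖c‖))
    rw [show (((φ (c • f.1) n : A) : Unitization ℂ A) - c • ((φ f.1 n : A) : Unitization ℂ A)) * ((a : A) : Unitization ℂ A) =
      (((φ (c • f : dropAlg23).1 n : A) : Unitization ℂ A) - r (c • f) n) * ((a : A) : Unitization ℂ A) +
        (r (c • f) n - (c • r f) n) * ((a : A) : Unitization ℂ A) + -(c • ((((φ f.1 n : A) : Unitization ℂ A) - r f n) * ((a : A) : Unitization ℂ A))) by
          simp only [sub_mul, smul_sub, smul_mul_assoc, SetLike.val_smul,
            BoundedContinuousFunction.coe_smul]; abel]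
    refine (norm_add_le _ _).trans (add_le_add (norm_add_le _ _) ?_)
    rw [norm_neg, norm_smul]
  · lift f to dropAlg23 using hf
    refine (tendsto_norm_inr fun n => (by
      simp [Unitization.inr_sub, Unitization.inr_star, Unitization.inr_mul] :
        (((φ (star f.1) n : A) : Unitization ℂ A) - star (((φ f.1 n : A) : Unitization ℂ A))) * ((a : A) : Unitization ℂ A) =
          (((φ (star f.1) n - star (φ f.1 n)) * a : A) : Unitization ℂ A))).1 ?_
    refine squeeze_zero (fun n => norm_nonneg _) (fun n => ?_) (by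
      simpa using (((hrep (star f) a).add
        (hclseq (star f) _ (hr f).star (by rw [cls_star (hr f), hrc, map_star]; rfl) a)).add
          ((hcomm f (star a)).const_mul 2)).add ((hle a).const_mul ‖r f‖))
    rw [show (((φ (star f.1) n : A) : Unitization ℂ A) - star (((φ f.1 n : A) : Unitization ℂ A))) * ((a : A) : Unitization ℂ A) =
      (((φ (star f : dropAlg23).1 n : A) : Unitization ℂ A) - r (star f) n) * ((a : A) : Unitization ℂ A) +
        (r (star f) n - (star (r f)) n) * ((a : A) : Unitization ℂ A) +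
        -(((e n : A) : Unitization ℂ A) * (star (r f n) * ((a : A) : Unitization ℂ A) - ((a : A) : Unitization ℂ A) * star (r f n)) -
          (star (r f n) * ((a : A) : Unitization ℂ A) - ((a : A) : Unitization ℂ A) * star (r f n))) +
        -((((e n : A) : Unitization ℂ A) * ((a : A) : Unitization ℂ A) - ((a : A) : Unitization ℂ A)) * star (r f n)) by
          rw [hinr f n, star_mul, ← Unitization.inr_star, hes n]
          simp only [sub_mul, mul_sub, mul_assoc, StarMemClass.coe_star,
            BoundedContinuousFunction.star_apply]; abel]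
    have hs : ‖star (r f n) * ((a : A) : Unitization ℂ A) - ((a : A) : Unitization ℂ A) * star (r f n)‖ =
        ‖((star a : A) : Unitization ℂ A) * r f n - r f n * ((star a : A) : Unitization ℂ A)‖ := by
      rw [← norm_star, star_sub, star_mul, star_mul, star_star, ← Unitization.inr_star]
    refine (norm_add_le _ _).trans (add_le_add
      ((norm_add_le _ _).trans (add_le_add (norm_add_le _ _) ?_)) ?_)
    · rw [norm_neg]
      refine (norm_sub_le _ _).trans ?_
      have h1 := (norm_mul_le (((e n : A) : Unitization ℂ A)) (star (r f n) * ((a : A) : Unitization ℂ A) - ((a : A) : Unitization ℂ A) * star (r f n))).trans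
        (mul_le_of_le_one_left (norm_nonneg _) (hen n))
      rw [Unitization.inr_star] at hs
      linarith
    · rw [norm_neg, mul_comm]
      refine (norm_mul_le _ _).trans (mul_le_mul_of_nonneg_left ?_ (norm_nonneg _))
      rw [norm_star]
      exact (r f).norm_coe_le_norm n
  · lift f to dropAlg23 using hf
    refine (tendsto_norm_inr fun n => (by
      simp [unitAct_inr, Unitization.inr_sub, Unitization.inr_mul] :
        ((unitAct α).hom g (((φ f.1 n : A) : Unitization ℂ A)) - ((φ f.1 n : A) : Unitization ℂ A)) * ((a : A) : Unitization ℂ A) =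
          (((α g (φ f.1 n) - φ f.1 n) * a : A) : Unitization ℂ A))).1 ?_
    have hfx : (unitAct α).act g (cls (r f) (hr f)) = cls (r f) (hr f) := by
      rw [hrc]
      exact (unitAct α).mem_fixed.1 (Φ f).2 g (Subgroup.mem_top g)
    rw [(unitAct α).act_cls] at hfx
    have hfx' := cls_eq_iff.1 hfx (((a : A) : Unitization ℂ A)) ⟨a, rfl⟩
    simp only [seqComp_apply] at hfx'
    refine squeeze_zero (fun n => norm_nonneg _) (fun n => ?_) (by
      simpa using ((hrep f (α g⁻¹ a)).add hfx').add (hrep f a))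
    rw [show ((unitAct α).hom g (((φ f.1 n : A) : Unitization ℂ A)) - ((φ f.1 n : A) : Unitization ℂ A)) * ((a : A) : Unitization ℂ A) =
      (unitAct α).hom g ((((φ f.1 n : A) : Unitization ℂ A) - r f n) * ((α g⁻¹ a : A) : Unitization ℂ A)) +
        ((unitAct α).hom g (r f n) - r f n) * ((a : A) : Unitization ℂ A) + -((((φ f.1 n : A) : Unitization ℂ A) - r f n) * ((a : A) : Unitization ℂ A)) by
          rw [map_mul, map_sub,
            show (unitAct α).hom g (((α g⁻¹ a : A) : Unitization ℂ A)) = ((a : A) : Unitization ℂ A) by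
              rw [← unitAct_inr, (unitAct α).hom_inv]]
          simp only [sub_mul]; abel]
    refine (norm_add_le _ _).trans (add_le_add ((norm_add_le _ _).trans (add_le_add ?_ le_rfl)) ?_)
    · simp only [← map_inv]
      exact NonUnitalStarAlgHom.norm_apply_le _ _
    · rw [norm_neg]

/-- **Equivariant Jiang–Su stability passes to extensions by locally finite groups.** -/
theorem exists_invariant_mod [Countable G] (N : Subgroup G) [N.Normal]
    (hfin : ∀ s : Finset (G ⧸ N),
      ((Subgroup.closure (s : Set (G ⧸ N)) : Subgroup (G ⧸ N)) : Set (G ⧸ N)).Finite)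
    (h : ∃ φ, IsInvariantDropHomMod (α.comp N.subtype) φ) :
    ∃ φ, IsInvariantDropHomMod α φ := by
  obtain ⟨φ, hφ⟩ := h
  obtain ⟨Φ⟩ := exists_hom (unitAct α) N hfin
    (hom_of_mod hφ.hom fun g hg f hf a => hφ.invariant ⟨g, hg⟩ f hf a)
  exact mod_of_hom Φ

/-- **Actions with locally finite image.** -/
theorem exists_invariant_mod_of_locallyFinite [Countable G]
    (hfin : ∀ s : Finset G,
      (((Subgroup.closure (s : Set G)).map α : Subgroup (A ≃⋆ₐ[ℂ] A)) :
        Set (A ≃⋆ₐ[ℂ] A)).Finite)
    (h : ∃ φ, IsDropHomMod A φ) : ∃ φ, IsInvariantDropHomMod α φ := by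
  classical
  obtain ⟨φ, hφ⟩ := h
  refine exists_invariant_mod (α := α) α.ker (fun s => ?_)
    ⟨φ, hφ, fun g f _ a => ?_⟩
  · let t : Finset G := s.image Quotient.out
    have hle : Subgroup.closure (s : Set (G ⧸ α.ker)) ≤
        (Subgroup.closure (t : Set G)).map (QuotientGroup.mk' α.ker) := by
      rw [Subgroup.closure_le]
      exact fun q hq => ⟨q.out, Subgroup.subset_closure
        (Finset.mem_coe.2 (Finset.mem_image_of_mem _ hq)), QuotientGroup.out_eq' q⟩
    refine Set.Finite.of_finite_image (f := QuotientGroup.kerLift α) ?_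
      (QuotientGroup.kerLift_injective α).injOn
    refine (hfin t).subset ?_
    rintro _ ⟨q, hq, rfl⟩
    obtain ⟨x, hx, rfl⟩ := hle hq
    exact ⟨x, hx, rfl⟩
  · have hg : α (g : G) = 1 := g.2
    simp [hg]

end Vale.Agent.P095.Relative
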