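import Vale.Agent.P095.Relative.Algebra

/-!
# P095 Relative: reindexing finitely many central sequences into commuting copies
-/

noncomputable section

namespace Vale.Agent.P095.Relative

open Filter Topology BoundedContinuousFunction Vale.Agent.P101

universe u v

variable {B : Type u} [CStarAlgebra B] {K : TestIdeal B}

/-- Uniformly Lipschitz maps which go to zero on a dense sequence go to zero on the closure. -/
theorem tendsto_dense {a : ℕ → B} (T : ℕ → B → B) (C : ℝ)
    (hT : ∀ n k k', ‖T n k - T n k'‖ ≤ C * ‖k - k'‖)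
    (h : ∀ p, Tendsto (fun n => ‖T n (a p)‖) atTop (𝓝 0)) {k : B}
    (hk : k ∈ closure (Set.range a)) : Tendsto (fun n => ‖T n k‖) atTop (𝓝 0) := by
  rw [Metric.tendsto_nhds]
  intro ε hε
  obtain ⟨_, ⟨p, rfl⟩, hp⟩ := Metric.mem_closure_iff.1 hk (ε / (2 * (|C| + 1))) (by positivity)
  rw [dist_eq_norm] at hp
  filter_upwards [(h p).eventually (gt_mem_nhds (half_pos hε))] with n hn
  rw [Real.dist_eq, sub_zero, abs_of_nonneg (norm_nonneg _)]
  have h1 : C * ‖k - a p‖ ≤ (|C| + 1) * (ε / (2 * (|C| + 1))) := by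
    calc C * ‖k - a p‖ ≤ (|C| + 1) * ‖k - a p‖ :=
          mul_le_mul_of_nonneg_right (by linarith [le_abs_self C]) (norm_nonneg _)
      _ ≤ _ := mul_le_mul_of_nonneg_left hp.le (by positivity)
  have h2 : (|C| + 1) * (ε / (2 * (|C| + 1))) = ε / 2 := by field_simp
  have h3 := norm_le_norm_sub_add (T n k) (T n (a p))
  have h4 := hT n k (a p)
  linarith

theorem lip_mul (x : B) {C : ℝ} (hx : ‖x‖ ≤ C) (k k' : B) :
    ‖x * k - x * k'‖ ≤ C * ‖k - k'‖ := by
  rw [← mul_sub]
  exact (norm_mul_le _ _).trans (mul_le_mul_of_nonneg_right hx (norm_nonneg _))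

theorem lip_comm (x : B) {C : ℝ} (hx : ‖x‖ ≤ C) (k k' : B) :
    ‖(k * x - x * k) - (k' * x - x * k')‖ ≤ 2 * C * ‖k - k'‖ := by
  rw [show (k * x - x * k) - (k' * x - x * k') = (k - k') * x - x * (k - k') by noncomm_ring]
  refine (norm_sub_le _ _).trans ((add_le_add (norm_mul_le _ _) (norm_mul_le _ _)).trans ?_)
  nlinarith [mul_le_mul_of_nonneg_left hx (norm_nonneg (k - k'))]

/-- Against an ideal, a fixed element commutes asymptotically with a central sequence. -/
theorem tendsto_comm_fixed {F : Filter ℕ} {f : ℕ →ᵇ B} (hf : IsRel K F f) (x : B) {k : B}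
    (hk : k ∈ K.carrier) :
    Tendsto (fun j => ‖(x * f j - f j * x) * k‖) F (𝓝 0) := by
  rw [IsRel, mem_relCent] at hf
  refine squeeze_zero (fun j => norm_nonneg _) (fun j => ?_)
    (by simpa using ((hf k hk).const_mul ‖x‖).add (hf _ (K.mul_left x k hk)))
  rw [show (x * f j - f j * x) * k =
    x * (-(k * f j - f j * k)) + (x * k * f j - f j * (x * k)) by noncomm_ring]
  refine (norm_add_le _ _).trans (add_le_add ((norm_mul_le _ _).trans ?_) le_rfl)
  rw [norm_neg]

variable [TopologicalSpace.SeparableSpace B]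

omit [TopologicalSpace.SeparableSpace B] in
/-- The pick at one step. -/
theorem exists_picks {κ : Type*} [Finite κ] (W : κ → ℕ →ᵇ B) (hW : ∀ i, IsRel K atTop (W i))
    (R : ℕ → ℕ →ᵇ B)
    (hR : ∀ p, ∀ k ∈ K.carrier, Tendsto (fun n => ‖R p n * k‖) atTop (𝓝 0))
    (a : ℕ → B) (ha : ∀ p, a p ∈ K.carrier) (n : ℕ) {ε : ℝ} (hε : 0 < ε) (m : ℕ) :
    ∃ k : Fin m → ℕ,
      (∀ s i, ∀ p ≤ n, ‖a p * W i (k s) - W i (k s) * a p‖ < ε) ∧
      (∀ s, ∀ p ≤ n, ∀ q ≤ n, ‖R p (k s) * a q‖ < ε) ∧
      ∀ s t, t < s → ∀ i l, ∀ q ≤ n,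
        ‖(W l (k t) * W i (k s) - W i (k s) * W l (k t)) * a q‖ < ε ∧
        ‖(star (W l (k t)) * W i (k s) - W i (k s) * star (W l (k t))) * a q‖ < ε := by
  induction m with
  | zero => exact ⟨Fin.elim0, fun s => s.elim0, fun s => s.elim0, fun s => s.elim0⟩
  | succ m ih =>
    obtain ⟨k, hk1, hk2, hk3⟩ := ih
    have h1 : ∀ᶠ j in (atTop : Filter ℕ), ∀ i, ∀ p ∈ Set.Iic n,
        ‖a p * W i j - W i j * a p‖ < ε :=
      eventually_all.2 fun i => (Set.finite_Iic n).eventually_all.2 fun p _ =>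
        (mem_relCent.1 (hW i) _ (ha p)).eventually (gt_mem_nhds hε)
    have h2 : ∀ᶠ j in (atTop : Filter ℕ), ∀ p ∈ Set.Iic n, ∀ q ∈ Set.Iic n,
        ‖R p j * a q‖ < ε :=
      (Set.finite_Iic n).eventually_all.2 fun p _ => (Set.finite_Iic n).eventually_all.2
        fun q _ => (hR p _ (ha q)).eventually (gt_mem_nhds hε)
    have h3 : ∀ᶠ j in (atTop : Filter ℕ), ∀ t : Fin m, ∀ i l, ∀ q ∈ Set.Iic n,
        ‖(W l (k t) * W i j - W i j * W l (k t)) * a q‖ < ε ∧
        ‖(star (W l (k t)) * W i j - W i j * star (W l (k t))) * a q‖ < ε :=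
      eventually_all.2 fun t => eventually_all.2 fun i => eventually_all.2 fun l =>
        (Set.finite_Iic n).eventually_all.2 fun q _ =>
          ((tendsto_comm_fixed (hW i) _ (ha q)).eventually (gt_mem_nhds hε)).and
            ((tendsto_comm_fixed (hW i) _ (ha q)).eventually (gt_mem_nhds hε))
    obtain ⟨j, hj1, hj2, hj3⟩ := (h1.and (h2.and h3)).exists
    refine ⟨Fin.snoc k j, fun s i p hp => ?_, fun s p hp q hq => ?_,
      fun s t hts i l q hq => ?_⟩
    · cases s using Fin.lastCases with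
      | last => simpa using hj1 i p hp
      | cast s => simpa using hk1 s i p hp
    · cases s using Fin.lastCases with
      | last => simpa using hj2 p hp q hq
      | cast s => simpa using hk2 s p hp q hq
    · cases t using Fin.lastCases with
      | last => exact absurd hts (not_lt.2 (Fin.le_last s))
      | cast t => cases s using Fin.lastCases with
        | last => simpa using hj3 t i l q hq
        | cast s => simpa using hk3 s t (Fin.castSucc_lt_castSucc_iff.1 hts) i l q hq

/-- Finitely many central sequences can be reindexed into arbitrarily many mutually commuting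
copies, preserving countably many null relations. -/
theorem exists_reindex {κ : Type*} [Finite κ] {ρ : Type*} [Countable ρ] (W : κ → ℕ →ᵇ B)
    (hW : ∀ i, IsRel K atTop (W i)) (R : ρ → ℕ →ᵇ B)
    (hR : ∀ p, ∀ k ∈ K.carrier, Tendsto (fun n => ‖R p n * k‖) atTop (𝓝 0)) (m : ℕ) :
    ∃ κs : Fin m → C(ℕ, ℕ),
      ∃ hrel : ∀ s i, IsRel K atTop ((W i).compContinuous (κs s)),
      (∀ s p, ∀ k ∈ K.carrier, Tendsto (fun n => ‖R p (κs s n) * k‖) atTop (𝓝 0)) ∧
      ∀ s t, s ≠ t → ∀ i l,
        StarCommute (cls _ (hrel s i)) (cls _ (hrel t l)) := by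
  classical
  rcases K.carrier.eq_empty_or_nonempty with hK | hK
  · refine ⟨fun _ => ⟨id, continuous_id⟩, fun s i => mem_relCent.2 fun k hk => ?_,
      fun s p k hk => ?_, fun s t _ i l => ?_⟩
    · rw [hK] at hk; exact hk.elim
    · rw [hK] at hk; exact hk.elim
    · constructor
      · rw [Commute, SemiconjBy, ← cls_mul, ← cls_mul, cls_eq_iff]
        intro k hk; rw [hK] at hk; exact hk.elim
      · rw [Commute, SemiconjBy, ← cls_star, ← cls_mul, ← cls_mul, cls_eq_iff]
        intro k hk; rw [hK] at hk; exact hk.elim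
  have : Nonempty K.carrier := hK.to_subtype
  obtain ⟨b, hb⟩ := TopologicalSpace.exists_dense_seq K.carrier
  let a : ℕ → B := fun p => (b p : B)
  have hden : ∀ k ∈ K.carrier, k ∈ closure (Set.range a) := fun k hk => by
    have := hb.closure_eq ▸ Set.mem_univ (⟨k, hk⟩ : K.carrier)
    exact map_mem_closure (f := fun x : K.carrier => (x : B)) continuous_subtype_val this
      (by rintro _ ⟨p, rfl⟩; exact ⟨p, rfl⟩)
  obtain ⟨e, he⟩ := exists_surjective_nat (Option ρ)
  let R' : ℕ → ℕ →ᵇ B := fun p => (e p).elim 0 R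
  have hR' : ∀ p, ∀ k ∈ K.carrier, Tendsto (fun n => ‖R' p n * k‖) atTop (𝓝 0) := fun p k hk => by
    show Tendsto (fun n => ‖((e p).elim 0 R : ℕ →ᵇ B) n * k‖) atTop (𝓝 0)
    rcases e p with _ | q
    · simp
    · exact hR q k hk
  let η : ℕ → ℝ := fun n => 1 / ((n : ℝ) + 1)
  have hη : ∀ n, 0 < η n := fun n => by positivity
  have hη0 : Tendsto η atTop (𝓝 0) := tendsto_one_div_add_atTop_nhds_zero_nat
  choose k hk1 hk2 hk3 using fun n => exists_picks W hW R' hR' a (fun p => (b p).2) n (hη n) m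
  let κs : Fin m → C(ℕ, ℕ) := fun s => ⟨fun n => k n s, continuous_of_discreteTopology⟩
  have hlim : ∀ {u : ℕ → ℝ} {p : ℕ}, (∀ n, 0 ≤ u n) → (∀ n, p ≤ n → u n < η n) →
      Tendsto u atTop (𝓝 0) := fun {u p} h0 h =>
    squeeze_zero' (Eventually.of_forall h0)
      ((eventually_ge_atTop p).mono fun n hn => (h n hn).le) hη0
  have hrel : ∀ s i, IsRel K atTop ((W i).compContinuous (κs s)) := fun s i => by
    rw [IsRel, mem_relCent]
    intro c hc
    exact tendsto_dense (fun n x => x * W i (k n s) - W i (k n s) * x) (2 * ‖W i‖)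
      (fun n => lip_comm _ ((W i).norm_coe_le_norm _))
      (fun p => hlim (fun n => norm_nonneg _) fun n hn => hk1 n s i p hn) (hden c hc)
  refine ⟨κs, hrel, fun s p c hc => ?_, ?_⟩
  · obtain ⟨q, hq⟩ := he (some p)
    have hq' : R' q = R p := by simp [R', hq]
    refine tendsto_dense (fun n x => R p (k n s) * x) ‖R p‖
      (fun n => lip_mul _ ((R p).norm_coe_le_norm _))
      (fun l => hlim (p := max q l) (fun n => norm_nonneg _) fun n hn => ?_) (hden c hc)
    rw [← hq']
    exact hk2 n s q ((le_max_left _ _).trans hn) l ((le_max_right _ _).trans hn)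
  have main : ∀ s t, t < s → ∀ i l,
      Commute (cls _ (hrel t l)) (cls _ (hrel s i)) ∧
        Commute (star (cls _ (hrel t l))) (cls _ (hrel s i)) := by
    intro s t hts i l
    constructor
    · rw [Commute, SemiconjBy, ← cls_mul, ← cls_mul, cls_eq_iff]
      intro c hc
      exact tendsto_dense
        (fun n x => (W l (k n t) * W i (k n s) - W i (k n s) * W l (k n t)) * x)
        (2 * (‖W l‖ * ‖W i‖))
        (fun n => lip_mul _ ((norm_sub_le _ _).trans (by
          have h1 := norm_mul_le (W l (k n t)) (W i (k n s))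
          have h2 := norm_mul_le (W i (k n s)) (W l (k n t))
          have h3 : ‖W l (k n t)‖ * ‖W i (k n s)‖ ≤ ‖W l‖ * ‖W i‖ :=
            mul_le_mul ((W l).norm_coe_le_norm _) ((W i).norm_coe_le_norm _) (norm_nonneg _)
              (norm_nonneg _)
          nlinarith)))
        (fun q => hlim (fun n => norm_nonneg _) fun n hn => (hk3 n s t hts i l q hn).1)
        (hden c hc)
    · rw [Commute, SemiconjBy, ← cls_star, ← cls_mul, ← cls_mul, cls_eq_iff]
      intro c hc
      exact tendsto_dense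
        (fun n x =>
          (star (W l (k n t)) * W i (k n s) - W i (k n s) * star (W l (k n t))) * x)
        (2 * (‖W l‖ * ‖W i‖))
        (fun n => lip_mul _ ((norm_sub_le _ _).trans (by
          have h1 := norm_mul_le (star (W l (k n t))) (W i (k n s))
          have h2 := norm_mul_le (W i (k n s)) (star (W l (k n t)))
          rw [norm_star] at h1 h2
          have h3 : ‖W l (k n t)‖ * ‖W i (k n s)‖ ≤ ‖W l‖ * ‖W i‖ :=
            mul_le_mul ((W l).norm_coe_le_norm _) ((W i).norm_coe_le_norm _) (norm_nonneg _)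
              (norm_nonneg _)
          nlinarith)))
        (fun q => hlim (fun n => norm_nonneg _) fun n hn => (hk3 n s t hts i l q hn).2)
        (hden c hc)
  intro s t hst i l
  rcases lt_or_gt_of_ne hst with h | h
  · exact ⟨(main t s h l i).1, by simpa using ((main t s h l i).2).star_star⟩
  · exact ⟨(main s t h i l).1.symm, (main s t h i l).2.symm⟩

end Vale.Agent.P095.Relative
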