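import Vale.Agent.P095.Relative.Finite
import Vale.Agent.P101.Drop.Bridge
import Vale.Agent.P101.Drop.Data

/-!
# P095 Relative: locally finite quotient groups
-/

noncomputable section

namespace Vale.Agent.P095.Relative

open Filter Topology BoundedContinuousFunction Vale.Agent.P101

universe u v

variable {B : Type u} [CStarAlgebra B]

attribute [local instance] CStarAlgebra.spectralOrder CStarAlgebra.spectralOrderedRing

/-- The generators are contractions. -/
theorem norm_le_one_of_rel {y v : B} (h : star v * v = 1 - star y * y - y * star y) :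
    ‖y‖ ≤ 1 ∧ ‖v‖ ≤ 1 := by
  have key : ∀ z : B, star z * z ≤ 1 → ‖z‖ ≤ 1 := fun z hz => by
    have h1 : ‖star z * z‖ ≤ 1 :=
      (CStarAlgebra.norm_le_one_iff_of_nonneg _ (star_mul_self_nonneg z)).2 hz
    rw [CStarRing.norm_star_mul_self] at h1
    nlinarith [norm_nonneg z]
  refine ⟨key y ?_, key v ?_⟩
  · rw [← sub_nonneg, show 1 - star y * y = star v * v + y * star y by rw [h]; abel]
    exact add_nonneg (star_mul_self_nonneg v) (mul_star_self_nonneg y)
  · rw [h, sub_sub, sub_le_self_iff]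
    exact add_nonneg (star_mul_self_nonneg y) (mul_star_self_nonneg y)

variable {K : TestIdeal B} [TopologicalSpace.SeparableSpace B] {G : Type v} [Group G] [Countable G]
  (α : RelAction G K) (N : Subgroup G) [N.Normal]

/-- Contracting representatives of invariant generators. -/
structure Stage (H : Subgroup G) where
  /-- The first generator. -/
  Y : ℕ →ᵇ B
  /-- The second generator. -/
  V : ℕ →ᵇ B
  relY : IsRel K atTop Y
  relV : IsRel K atTop V
  normY : ‖Y‖ < 2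
  normV : ‖V‖ < 2
  sq : ∀ c ∈ K.carrier, Tendsto (fun n => ‖Y n * Y n * c‖) atTop (𝓝 0)
  defect : ∀ c ∈ K.carrier, Tendsto (fun n => ‖(star (V n) * V n -
    (1 - star (Y n) * Y n - Y n * star (Y n))) * c‖) atTop (𝓝 0)
  absorb : ∀ c ∈ K.carrier,
    Tendsto (fun n => ‖(Y n * star (Y n) * V n - V n) * c‖) atTop (𝓝 0)
  invY : ∀ h ∈ H, ∀ c ∈ K.carrier, Tendsto (fun n => ‖(α.hom h (Y n) - Y n) * c‖) atTop (𝓝 0)
  invV : ∀ h ∈ H, ∀ c ∈ K.carrier, Tendsto (fun n => ‖(α.hom h (V n) - V n) * c‖) atTop (𝓝 0)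

/-- A finitely generated stage. -/
theorem exists_stage_gens (hN : IsEmpty (α.fixed atTop N →⋆ₐ[ℂ] ℂ)) (C : Finset (G ⧸ N))
    (hfin : ((Subgroup.closure (C : Set (G ⧸ N)) : Subgroup (G ⧸ N)) : Set (G ⧸ N)).Finite)
    (H : Subgroup G)
    (hH : ∀ x ∈ H, (x : G ⧸ N) ∈ Subgroup.closure (C : Set (G ⧸ N))) :
    ∃ y v : RelQuot K atTop, (∀ h ∈ H, α.act h y = y) ∧
      (∀ h ∈ H, α.act h v = v) ∧ y * y = 0 ∧
      star v * v = 1 - star y * y - y * star y ∧ y * star y * v = v := by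
  have : (N.subgroupOf H).Normal := inferInstance
  have : Finite (H ⧸ N.subgroupOf H) := by
    let f : H ⧸ N.subgroupOf H →* G ⧸ N :=
      QuotientGroup.map _ N H.subtype fun x hx => hx
    have hf : ∀ q, f q ∈ Subgroup.closure (C : Set (G ⧸ N)) := fun q => by
      obtain ⟨x, rfl⟩ := QuotientGroup.mk_surjective q
      exact hH _ x.2
    have := hfin.to_subtype
    refine Finite.of_injective (fun q => (⟨f q, hf q⟩ :
      ((Subgroup.closure (C : Set (G ⧸ N)) : Subgroup (G ⧸ N)) : Set (G ⧸ N)))) fun p q h => ?_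
    obtain ⟨x, rfl⟩ := QuotientGroup.mk_surjective p
    obtain ⟨y, rfl⟩ := QuotientGroup.mk_surjective q
    have h' : ((x : G) : G ⧸ N) = ((y : G) : G ⧸ N) := congrArg Subtype.val h
    exact QuotientGroup.eq.2 ((QuotientGroup.eq (s := N) (a := (x : G)) (b := (y : G))).1 h')
  have hle : α.fixed atTop N ≤ (α.restrict H).fixed atTop (N.subgroupOf H) := by
    intro c hc
    refine (α.restrict H).mem_fixed.2 fun x hx => ?_
    rw [α.restrict_act]
    exact α.mem_fixed.1 hc _ hx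
  obtain ⟨y, v, hy, hv, h1, h2, h3⟩ := exists_gens_of_finiteQuotient (α.restrict H)
    (N.subgroupOf H) ⟨fun χ => hN.false (χ.comp (StarSubalgebra.inclusion hle))⟩
  refine ⟨y, v, fun h hh => ?_, fun h hh => ?_, h1, h2, h3⟩
  · exact (α.restrict_act H ⟨h, hh⟩ y).symm.trans (hy _)
  · exact (α.restrict_act H ⟨h, hh⟩ v).symm.trans (hv _)

omit [TopologicalSpace.SeparableSpace B] [Countable G] in
/-- A stage from generators. -/
theorem nonempty_stage {H : Subgroup G} {y v : RelQuot K atTop} (hy : ∀ h ∈ H, α.act h y = y)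
    (hv : ∀ h ∈ H, α.act h v = v) (h1 : y * y = 0)
    (h2 : star v * v = 1 - star y * y - y * star y) (h3 : y * star y * v = v) :
    Nonempty (Stage α H) := by
  obtain ⟨hny, hnv⟩ := norm_le_one_of_rel h2
  obtain ⟨Y, hY, hYc, hYn⟩ := exists_cls_bound y (r := 2) (hny.trans_lt one_lt_two)
  obtain ⟨V, hV, hVc, hVn⟩ := exists_cls_bound v (r := 2) (hnv.trans_lt one_lt_two)
  subst hYc hVc
  rw [← cls_mul hY hY] at h1
  rw [← cls_one (K := K) (F := atTop), ← cls_star hY, ← cls_star hV, ← cls_mul hY.star hY,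
    ← cls_mul hY hY.star, ← cls_mul hV.star hV, ← cls_sub IsRel.one (hY.star.mul hY),
    ← cls_sub (IsRel.one.sub (hY.star.mul hY)) (hY.mul hY.star)] at h2
  rw [← cls_star hY, ← cls_mul hY hY.star, ← cls_mul (hY.mul hY.star) hV] at h3
  have d1 := cls_eq_zero_iff.1 h1
  have d2 := cls_eq_iff.1 h2
  have d3 := cls_eq_iff.1 h3
  simp only [BoundedContinuousFunction.coe_mul, Pi.mul_apply] at d1
  simp only [BoundedContinuousFunction.coe_mul, BoundedContinuousFunction.coe_sub,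
    BoundedContinuousFunction.coe_one, BoundedContinuousFunction.star_apply, Pi.mul_apply,
    Pi.sub_apply, Pi.one_apply] at d2 d3
  refine ⟨⟨Y, V, hY, hV, hYn, hVn, d1, d2, d3, fun h hh => ?_, fun h hh => ?_⟩⟩
  · have i1 := hy h hh
    rw [α.act_cls] at i1
    have i1' := cls_eq_iff.1 i1
    simp only [seqComp_apply] at i1'
    exact i1'
  · have i2 := hv h hh
    rw [α.act_cls] at i2
    have i2' := cls_eq_iff.1 i2
    simp only [seqComp_apply] at i2'
    exact i2'

/-- The error bounds at one step of the diagonal. -/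
def Good {H : Subgroup G} (S : Stage α H) (g : ℕ → G) (a : ℕ → B) (n : ℕ) (η : ℝ) (j : ℕ) :
    Prop :=
  ∀ p ∈ Set.Iic n,
    ‖a p * S.Y j - S.Y j * a p‖ < η ∧ ‖a p * S.V j - S.V j * a p‖ < η ∧
    ‖S.Y j * S.Y j * a p‖ < η ∧
    ‖(star (S.V j) * S.V j - (1 - star (S.Y j) * S.Y j - S.Y j * star (S.Y j))) * a p‖ < η ∧
    ‖(S.Y j * star (S.Y j) * S.V j - S.V j) * a p‖ < η ∧
    ∀ i ∈ Set.Iic n, ‖(α.hom (g i) (S.Y j) - S.Y j) * a p‖ < η ∧
      ‖(α.hom (g i) (S.V j) - S.V j) * a p‖ < η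

omit [TopologicalSpace.SeparableSpace B] [Countable G] in
theorem exists_good {H : Subgroup G} (S : Stage α H) (g : ℕ → G) (a : ℕ → B)
    (ha : ∀ p, a p ∈ K.carrier) (n : ℕ) (hg : ∀ i ≤ n, g i ∈ H) {η : ℝ} (hη : 0 < η) :
    ∃ j, Good α S g a n η j := by
  refine ((Set.finite_Iic n).eventually_all.2 fun p _ => ?_).exists (f := atTop)
  have hev : ∀ {u : ℕ → ℝ}, Tendsto u atTop (𝓝 0) → ∀ᶠ j in atTop, u j < η :=
    fun hu => hu.eventually (gt_mem_nhds hη)
  refine (hev (mem_relCent.1 S.relY _ (ha p))).and ((hev (mem_relCent.1 S.relV _ (ha p))).and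
    ((hev (S.sq _ (ha p))).and ((hev (S.defect _ (ha p))).and ((hev (S.absorb _ (ha p))).and ?_))))
  exact (Set.finite_Iic n).eventually_all.2 fun i hi =>
    (hev (S.invY (g i) (hg i hi) _ (ha p))).and (hev (S.invV (g i) (hg i hi) _ (ha p)))

/-- **Locally finite extension.** -/
theorem exists_gens (hfin : ∀ s : Finset (G ⧸ N),
      ((Subgroup.closure (s : Set (G ⧸ N)) : Subgroup (G ⧸ N)) : Set (G ⧸ N)).Finite)
    (hN : IsEmpty (α.fixed atTop N →⋆ₐ[ℂ] ℂ)) :
    ∃ y v : RelQuot K atTop, (∀ g, α.act g y = y) ∧ (∀ g, α.act g v = v) ∧ y * y = 0 ∧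
      star v * v = 1 - star y * y - y * star y ∧ y * star y * v = v := by
  classical
  rcases K.carrier.eq_empty_or_nonempty with hK | hK
  · have hall : ∀ c d : RelQuot K atTop, c = d := fun c d => by
      obtain ⟨f, hf, rfl⟩ := exists_cls c
      obtain ⟨g, hg, rfl⟩ := exists_cls d
      rw [cls_eq_iff]
      intro k hk
      rw [hK] at hk
      exact hk.elim
    exact ⟨0, 0, fun g => hall _ _, fun g => hall _ _, hall _ _, hall _ _, hall _ _⟩
  obtain ⟨g, hg⟩ := exists_surjective_nat G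
  let s : ℕ → Finset (G ⧸ N) := fun k => (Finset.range (k + 1)).image fun i => (g i : G ⧸ N)
  let H : ℕ → Subgroup G := fun k =>
    (Subgroup.closure (s k : Set (G ⧸ N))).comap (QuotientGroup.mk' N)
  have hgH : ∀ k i, i ≤ k → g i ∈ H k := fun k i hi => by
    show (g i : G ⧸ N) ∈ Subgroup.closure (s k : Set (G ⧸ N))
    exact Subgroup.subset_closure (Finset.mem_coe.2 (Finset.mem_image.2
      ⟨i, Finset.mem_range.2 (Nat.lt_succ_of_le hi), rfl⟩))
  have hstage : ∀ k, Nonempty (Stage α (H k)) := fun k => by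
    obtain ⟨y, v, hy, hv, h1, h2, h3⟩ :=
      exists_stage_gens α N hN (s k) (hfin (s k)) (H k) fun x hx => hx
    exact nonempty_stage α hy hv h1 h2 h3
  let S := fun k => (hstage k).some
  -- the diagonal
  have : Nonempty K.carrier := hK.to_subtype
  obtain ⟨b, hb⟩ := TopologicalSpace.exists_dense_seq K.carrier
  let a : ℕ → B := fun p => (b p : B)
  have hden : ∀ k ∈ K.carrier, k ∈ closure (Set.range a) := fun k hk => by
    have := hb.closure_eq ▸ Set.mem_univ (⟨k, hk⟩ : K.carrier)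
    exact map_mem_closure (f := fun x : K.carrier => (x : B)) continuous_subtype_val this
      (by rintro _ ⟨p, rfl⟩; exact ⟨p, rfl⟩)
  let η : ℕ → ℝ := fun n => 1 / ((n : ℝ) + 1)
  have hη : ∀ n, 0 < η n := fun n => by positivity
  have hη0 : Tendsto η atTop (𝓝 0) := tendsto_one_div_add_atTop_nhds_zero_nat
  choose j hj using fun n =>
    exists_good α (S n) g a (fun p => (b p).2) n (fun i hi => hgH n i hi) (hη n)
  have hbd : ∀ (W : ℕ → ℕ →ᵇ B), (∀ k, ‖W k‖ < 2) → ∀ n, ‖W n (j n)‖ ≤ 2 :=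
    fun W hW n => ((W n).norm_coe_le_norm _).trans (hW n).le
  let Yd : ℕ →ᵇ B := bseq (fun n => (S n).Y (j n)) 2 (hbd (fun k => (S k).Y) fun k => (S k).normY)
  let Vd : ℕ →ᵇ B := bseq (fun n => (S n).V (j n)) 2 (hbd (fun k => (S k).V) fun k => (S k).normV)
  have hlim : ∀ {u : ℕ → ℝ} {p : ℕ}, (∀ n, 0 ≤ u n) → (∀ n, p ≤ n → u n < η n) →
      Tendsto u atTop (𝓝 0) := fun {u p} h0 h =>
    squeeze_zero' (Eventually.of_forall h0)
      ((eventually_ge_atTop p).mono fun n hn => (h n hn).le) hη0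
  have hmulden : ∀ (z : ℕ →ᵇ B), (∀ p, Tendsto (fun n => ‖z n * a p‖) atTop (𝓝 0)) →
      ∀ c ∈ K.carrier, Tendsto (fun n => ‖z n * c‖) atTop (𝓝 0) := fun z hz c hc =>
    tendsto_dense (fun n x => z n * x) ‖z‖ (fun n => lip_mul _ (z.norm_coe_le_norm n)) hz
      (hden c hc)
  have hYd : IsRel K atTop Yd := mem_relCent.2 fun c hc =>
    tendsto_dense (fun n x => x * Yd n - Yd n * x) (2 * ‖Yd‖)
      (fun n => lip_comm _ (Yd.norm_coe_le_norm n))
      (fun p => hlim (fun n => norm_nonneg _) fun n hn => (hj n p hn).1) (hden c hc)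
  have hVd : IsRel K atTop Vd := mem_relCent.2 fun c hc =>
    tendsto_dense (fun n x => x * Vd n - Vd n * x) (2 * ‖Vd‖)
      (fun n => lip_comm _ (Vd.norm_coe_le_norm n))
      (fun p => hlim (fun n => norm_nonneg _) fun n hn => (hj n p hn).2.1) (hden c hc)
  refine ⟨cls Yd hYd, cls Vd hVd, fun h => ?_, fun h => ?_, ?_, ?_, ?_⟩
  · obtain ⟨i, rfl⟩ := hg h
    rw [α.act_cls, cls_eq_iff]
    exact hmulden (seqComp (α.hom (g i)) Yd - Yd) fun p =>
      hlim (p := max p i) (fun n => norm_nonneg _) fun n hn =>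
        ((hj n p ((le_max_left _ _).trans hn)).2.2.2.2.2 i ((le_max_right _ _).trans hn)).1
  · obtain ⟨i, rfl⟩ := hg h
    rw [α.act_cls, cls_eq_iff]
    exact hmulden (seqComp (α.hom (g i)) Vd - Vd) fun p =>
      hlim (p := max p i) (fun n => norm_nonneg _) fun n hn =>
        ((hj n p ((le_max_left _ _).trans hn)).2.2.2.2.2 i ((le_max_right _ _).trans hn)).2
  · rw [← cls_mul hYd hYd, cls_eq_zero_iff]
    exact hmulden (Yd * Yd) fun p => hlim (fun n => norm_nonneg _) fun n hn => (hj n p hn).2.2.1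
  · rw [← cls_one (K := K) (F := atTop), ← cls_star hYd, ← cls_star hVd,
      ← cls_mul hYd.star hYd, ← cls_mul hYd hYd.star, ← cls_mul hVd.star hVd,
      ← cls_sub IsRel.one (hYd.star.mul hYd),
      ← cls_sub (IsRel.one.sub (hYd.star.mul hYd)) (hYd.mul hYd.star), cls_eq_iff]
    exact hmulden (star Vd * Vd - (1 - star Yd * Yd - Yd * star Yd)) fun p =>
      hlim (fun n => norm_nonneg _) fun n hn => (hj n p hn).2.2.2.1
  · rw [← cls_star hYd, ← cls_mul hYd hYd.star, ← cls_mul (hYd.mul hYd.star) hVd, cls_eq_iff]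
    exact hmulden (Yd * star Yd * Vd - Vd) fun p =>
      hlim (fun n => norm_nonneg _) fun n hn => (hj n p hn).2.2.2.2.1

/-- The homomorphism form. -/
theorem exists_hom (hfin : ∀ s : Finset (G ⧸ N),
      ((Subgroup.closure (s : Set (G ⧸ N)) : Subgroup (G ⧸ N)) : Set (G ⧸ N)).Finite)
    (h : Nonempty (dropAlg23 →⋆ₐ[ℂ] α.fixed atTop N)) :
    Nonempty (dropAlg23 →⋆ₐ[ℂ] α.fixed atTop (⊤ : Subgroup G)) := by
  obtain ⟨ψ⟩ := h
  have hN : IsEmpty (α.fixed atTop N →⋆ₐ[ℂ] ℂ) := ⟨fun χ => by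
    have hx : ∀ i, χ.comp ψ (dropGens i) = 0 := fun i => by
      have := congrArg (χ.comp ψ) (dropGens_sq i)
      rw [map_mul, map_zero] at this
      exact mul_self_eq_zero.1 this
    have h1 := congrArg (χ.comp ψ) dropInv_mul
    rw [map_one, map_mul, map_sum] at h1
    simp only [map_mul, hx, mul_zero, Finset.sum_const_zero] at h1
    exact zero_ne_one h1⟩
  obtain ⟨y, v, hy, hv, h1, h2, h3⟩ := exists_gens α N hfin hN
  have hy' : y ∈ α.fixed atTop (⊤ : Subgroup G) := α.mem_fixed.2 fun g _ => hy g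
  have hv' : v ∈ α.fixed atTop (⊤ : Subgroup G) := α.mem_fixed.2 fun g _ => hv g
  obtain ⟨T, X, M, M', d⟩ := exists_dropData (B := α.fixed atTop (⊤ : Subgroup G))
    ⟨y, hy'⟩ ⟨v, hv'⟩ (Subtype.ext h1) (Subtype.ext (by simpa using h2)) (Subtype.ext h3)
  obtain ⟨Φ⟩ := d.exists_hom
  exact ⟨Φ.comp (StarSubalgebra.inclusion dropAlg23_le)⟩

end Vale.Agent.P095.Relative
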